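import Mathlib.MeasureTheory.Integral.Layercake
import Mathlib.MeasureTheory.Measure.Lebesgue.EqHaar
import Mathlib.MeasureTheory.Integral.Lebesgue.Add
import Mathlib.MeasureTheory.Constructions.Pi
import Mathlib.MeasureTheory.Measure.Haar.InnerProductSpace
import Mathlib.MeasureTheory.Measure.Lebesgue.VolumeOfBalls
import Mathlib.MeasureTheory.Measure.Prod
import Mathlib.Analysis.MeanInequalities
import Mathlib.Analysis.SpecialFunctions.Pow.NNReal

/-! Weighted Prékopa–Leindler inequality and the Brunn–Minkowski inequality with a ball. -/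

open MeasureTheory Set Filter
open scoped ENNReal NNReal Pointwise Topology

namespace Vale.Agent.P219

lemma bm_compact_add {F G H : Set ℝ} (hF : IsCompact F) (hG : IsCompact G) (hFn : F.Nonempty)
    (hGn : G.Nonempty) (hH : ∀ x ∈ F, ∀ y ∈ G, x + y ∈ H) : volume F + volume G ≤ volume H := by
  set a := sSup F
  set b := sInf G
  have ha : a ∈ F := hF.sSup_mem hFn
  have hb : b ∈ G := hG.sInf_mem hGn
  let F' := (fun x => x + (-b)) ⁻¹' F
  let G' := (fun x => x + (-a)) ⁻¹' G
  have hsub : F' ∪ G' ⊆ H := by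
    rintro z (hz | hz)
    · simpa using hH _ hz b hb
    · simpa using hH a ha _ hz
  have hint : volume (F' ∩ G') = 0 := by
    refine measure_mono_null (t := {a + b}) ?_ (measure_singleton _)
    rintro z ⟨h1, h2⟩
    have := le_csSup hF.bddAbove h1
    have := csInf_le hG.bddBelow h2
    simp only [mem_singleton_iff]; linarith
  have h1 : volume F' = volume F := measure_preimage_add_right _ _ _
  have h2 : volume G' = volume G := measure_preimage_add_right _ _ _
  have hG' : MeasurableSet G' := hG.measurableSet.preimage (measurable_add_const _)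
  rw [← h1, ← h2, ← measure_union_add_inter F' hG', hint, add_zero]
  exact measure_mono hsub

lemma bm_one {p q : ℝ} (hp : 0 < p) (hq : 0 < q) {F G H : Set ℝ} (hF : MeasurableSet F)
    (hG : MeasurableSet G) (hFn : F.Nonempty) (hGn : G.Nonempty)
    (hH : ∀ x ∈ F, ∀ y ∈ G, p * x + q * y ∈ H) :
    ENNReal.ofReal p * volume F + ENNReal.ofReal q * volume G ≤ volume H := by
  obtain ⟨x0, hx0⟩ := hFn
  obtain ⟨y0, hy0⟩ := hGn
  rw [hF.measure_eq_iSup_isCompact, hG.measure_eq_iSup_isCompact, ENNReal.mul_iSup,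
    ENNReal.mul_iSup]
  simp only [ENNReal.mul_iSup, iSup_and']
  refine ENNReal.biSup_add_biSup_le' (p := fun A : Set ℝ => A ⊆ F ∧ IsCompact A)
    (q := fun A : Set ℝ => A ⊆ G ∧ IsCompact A) ⟨∅, empty_subset _, isCompact_empty⟩
    ⟨∅, empty_subset _, isCompact_empty⟩ fun A hA B hB => ?_
  have hs : ∀ (c : ℝ), 0 < c → ∀ S : Set ℝ,
      volume (c • S) = ENNReal.ofReal c * volume S := fun c hc S => by
    rw [Measure.addHaar_smul]; simp [abs_of_pos hc]
  rw [← hs p hp, ← hs q hq]
  refine le_trans (add_le_add (measure_mono (smul_set_mono (subset_insert x0 A)))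
    (measure_mono (smul_set_mono (subset_insert y0 B)))) ?_
  refine bm_compact_add ((hA.2.insert x0).image (continuous_const_smul p))
    ((hB.2.insert y0).image (continuous_const_smul q)) ((insert_nonempty _ _).image _)
    ((insert_nonempty _ _).image _) ?_
  rintro _ ⟨x, hx, rfl⟩ _ ⟨y, hy, rfl⟩
  refine hH x ?_ y ?_
  · rcases hx with rfl | hx
    exacts [hx0, hA.1 hx]
  · rcases hy with rfl | hy
    exacts [hy0, hB.1 hy]

lemma geom_le_arith {p q : ℝ} (hp : 0 < p) (hq : 0 < q) (hpq : p + q = 1) {A B C : ℝ≥0∞}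
    (h : ENNReal.ofReal p * A + ENNReal.ofReal q * B ≤ C) : A ^ p * B ^ q ≤ C := by
  rcases eq_or_ne C ⊤ with rfl | hC
  · exact le_top
  have hA : A ≠ ⊤ := by
    rintro rfl
    rw [ENNReal.mul_top (ENNReal.ofReal_pos.2 hp).ne', top_add, top_le_iff] at h
    exact hC h
  have hB : B ≠ ⊤ := by
    rintro rfl
    rw [ENNReal.mul_top (ENNReal.ofReal_pos.2 hq).ne', add_top, top_le_iff] at h
    exact hC h
  refine le_trans ?_ h
  lift A to ℝ≥0 using hA
  lift B to ℝ≥0 using hB
  rw [ENNReal.ofReal, ENNReal.ofReal, ← ENNReal.coe_rpow_of_nonneg _ hp.le,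
    ← ENNReal.coe_rpow_of_nonneg _ hq.le]
  norm_cast
  exact NNReal.geom_mean_le_arith_mean2_weighted p.toNNReal q.toNNReal A B
    (by rw [← Real.toNNReal_add hp.le hq.le, hpq, Real.toNNReal_one]) |>.trans_eq' (by
      rw [Real.coe_toNNReal _ hp.le, Real.coe_toNNReal _ hq.le])

lemma pl_one_real {p q : ℝ} (hp : 0 < p) (hq : 0 < q) (hpq : p + q = 1) (f g : ℝ → ℝ)
    (h : ℝ → ℝ≥0∞) (hf : Measurable f) (hg : Measurable g)
    (hh : Measurable h) (hf0 : ∀ x, 0 ≤ f x) (hg0 : ∀ x, 0 ≤ g x)
    (hfb : BddAbove (range f)) (hgb : BddAbove (range g))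
    (H : ∀ x y, ENNReal.ofReal (f x ^ p * g y ^ q) ≤ h (p * x + q * y)) :
    (∫⁻ x, ENNReal.ofReal (f x)) ^ p * (∫⁻ x, ENNReal.ofReal (g x)) ^ q ≤ ∫⁻ x, h x := by
  set a := ⨆ x, f x with hadef
  set b := ⨆ x, g x with hbdef
  have hfa : ∀ x, f x ≤ a := fun x => le_ciSup hfb x
  have hgb' : ∀ x, g x ≤ b := fun x => le_ciSup hgb x
  rcases eq_or_lt_of_le ((hf0 0).trans (hfa 0)) with ha | ha
  · have : ∀ x, f x = 0 := fun x => le_antisymm (ha ▸ hfa x) (hf0 x)
    simp [this, ENNReal.zero_rpow_of_pos hp]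
  rcases eq_or_lt_of_le ((hg0 0).trans (hgb' 0)) with hb | hb
  · have : ∀ x, g x = 0 := fun x => le_antisymm (hb ▸ hgb' x) (hg0 x)
    simp [this, ENNReal.zero_rpow_of_pos hq]
  set c := a ^ p * b ^ q with hcdef
  have hc : 0 < c := mul_pos (Real.rpow_pos_of_pos ha _) (Real.rpow_pos_of_pos hb _)
  set hr : ℝ → ℝ := fun z => (min (h z) (ENNReal.ofReal c)).toReal / c with hrdef
  have hrm : Measurable hr := ((hh.min measurable_const).ennreal_toReal).div_const c
  have hr0 : ∀ z, 0 ≤ hr z := fun z => div_nonneg ENNReal.toReal_nonneg hc.le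
  have key : ∀ t ∈ Ioi (0 : ℝ), ENNReal.ofReal p * volume {x | t < f x / a}
      + ENNReal.ofReal q * volume {x | t < g x / b} ≤ volume {z | t < hr z} := by
    intro t ht
    by_cases ht1 : t < 1
    · have e : ∀ z, (t < hr z ↔ ENNReal.ofReal (t * c) < h z) := by
        intro z
        rw [hrdef, lt_div_iff₀ hc, ← ENNReal.ofReal_lt_iff_lt_toReal
          (mul_pos ht hc).le (ne_top_of_le_ne_top ENNReal.ofReal_ne_top (min_le_right _ _)),
          lt_min_iff]
        refine ⟨fun h' => h'.1, fun h' => ⟨h', ?_⟩⟩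
        rw [ENNReal.ofReal_lt_ofReal_iff hc]
        nlinarith
      refine bm_one hp hq (measurableSet_lt measurable_const (hf.div_const a))
        (measurableSet_lt measurable_const (hg.div_const b)) ?_ ?_ ?_
      · obtain ⟨x, hx⟩ := exists_lt_of_lt_ciSup (show t * a < ⨆ x, f x by
          rw [← hadef]; nlinarith)
        exact ⟨x, (lt_div_iff₀ ha).2 hx⟩
      · obtain ⟨x, hx⟩ := exists_lt_of_lt_ciSup (show t * b < ⨆ x, g x by
          rw [← hbdef]; nlinarith)
        exact ⟨x, (lt_div_iff₀ hb).2 hx⟩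
      · intro x hx y hy
        simp only [Set.mem_ofPred_eq, lt_div_iff₀ ha] at hx
        simp only [Set.mem_ofPred_eq, lt_div_iff₀ hb] at hy
        show t < hr _
        rw [e]
        refine lt_of_lt_of_le ?_ (H x y)
        have h1 := Real.rpow_lt_rpow (mul_pos ht ha).le hx hp
        have h2 := Real.rpow_lt_rpow (mul_pos ht hb).le hy hq
        have h3 : t * c = (t * a) ^ p * (t * b) ^ q := by
          rw [Real.mul_rpow (le_of_lt ht) ha.le, Real.mul_rpow (le_of_lt ht) hb.le, hcdef]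
          have : t ^ p * t ^ q = t := by rw [← Real.rpow_add ht, hpq, Real.rpow_one]
          linear_combination (-(a ^ p * b ^ q)) * this
        have ht0 : (0 : ℝ) < t := ht
        rw [ENNReal.ofReal_lt_ofReal_iff (lt_of_le_of_lt (by positivity) (mul_lt_mul'' h1 h2
          (by positivity) (by positivity))), h3]
        exact mul_lt_mul'' h1 h2 (by positivity) (by positivity)
    · have h1 : {x | t < f x / a} = ∅ := by
        ext x; simp only [Set.mem_ofPred_eq, mem_empty_iff_false, iff_false, not_lt]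
        exact ((div_le_one ha).2 (hfa x)).trans (not_lt.1 ht1)
      have h2 : {x | t < g x / b} = ∅ := by
        ext x; simp only [Set.mem_ofPred_eq, mem_empty_iff_false, iff_false, not_lt]
        exact ((div_le_one hb).2 (hgb' x)).trans (not_lt.1 ht1)
      simp [h1, h2]
  have lay : ∀ F : ℝ → ℝ, Measurable F → (∀ x, 0 ≤ F x) →
      ∫⁻ x, ENNReal.ofReal (F x) = ∫⁻ t in Ioi (0 : ℝ), volume {x | t < F x} :=
    fun F hF hF0 => lintegral_eq_lintegral_meas_lt volume (Eventually.of_forall hF0) hF.aemeasurable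
  set A := ∫⁻ x, ENNReal.ofReal (f x / a)
  set B := ∫⁻ x, ENNReal.ofReal (g x / b)
  set C := ∫⁻ x, ENNReal.ofReal (hr x)
  have hsum : ENNReal.ofReal p * A + ENNReal.ofReal q * B ≤ C := by
    simp only [A, B, C, lay _ (hf.div_const a) (fun x => div_nonneg (hf0 x) ha.le),
      lay _ (hg.div_const b) (fun x => div_nonneg (hg0 x) hb.le), lay _ hrm hr0]
    have hm : Measurable fun t : ℝ => volume {x | t < f x / a} :=
      Antitone.measurable fun t t' htt => measure_mono fun x hx => lt_of_le_of_lt htt hx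
    rw [← lintegral_const_mul' _ _ ENNReal.ofReal_ne_top,
      ← lintegral_const_mul' _ _ ENNReal.ofReal_ne_top, ← lintegral_add_left (hm.const_mul _)]
    exact setLIntegral_mono' measurableSet_Ioi key
  have hCle : ENNReal.ofReal c * C ≤ ∫⁻ x, h x := by
    rw [← lintegral_const_mul' _ _ ENNReal.ofReal_ne_top]
    refine lintegral_mono fun z => ?_
    rw [← ENNReal.ofReal_mul hc.le, hrdef, mul_div_cancel₀ _ hc.ne']
    exact ENNReal.ofReal_toReal_le.trans (min_le_left _ _)
  have scale : ∀ (F : ℝ → ℝ) (r : ℝ), 0 < r → ∫⁻ x, ENNReal.ofReal (F x)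
      = ENNReal.ofReal r * ∫⁻ x, ENNReal.ofReal (F x / r) := by
    intro F r hr'
    rw [← lintegral_const_mul' _ _ ENNReal.ofReal_ne_top]
    simp_rw [← ENNReal.ofReal_mul hr'.le, mul_div_cancel₀ _ hr'.ne']
  rw [scale f a ha, scale g b hb, ENNReal.mul_rpow_of_nonneg _ _ hp.le,
    ENNReal.mul_rpow_of_nonneg _ _ hq.le, mul_mul_mul_comm,
    ENNReal.ofReal_rpow_of_pos ha, ENNReal.ofReal_rpow_of_pos hb,
    ← ENNReal.ofReal_mul (by positivity)]
  exact le_trans (mul_le_mul_right (geom_le_arith hp hq hpq hsum) _) hCle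

lemma pl_one {p q : ℝ} (hp : 0 < p) (hq : 0 < q) (hpq : p + q = 1) (f g h : ℝ → ℝ≥0∞)
    (hf : Measurable f) (hg : Measurable g) (hh : Measurable h)
    (H : ∀ x y, f x ^ p * g y ^ q ≤ h (p * x + q * y)) :
    (∫⁻ x, f x) ^ p * (∫⁻ x, g x) ^ q ≤ ∫⁻ x, h x := by
  have trunc : ∀ F : ℝ → ℝ≥0∞, Measurable F → Tendsto (fun n : ℕ => ∫⁻ x, min (F x) n)
      atTop (𝓝 (∫⁻ x, F x)) := by
    intro F hF
    have : ∫⁻ x, F x = ⨆ n : ℕ, ∫⁻ x, min (F x) n := by
      rw [← lintegral_iSup (fun n => hF.min measurable_const)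
        (fun n m hnm x => min_le_min_left _ (by exact_mod_cast hnm))]
      refine lintegral_congr fun x => ?_
      rw [← inf_iSup_eq, ENNReal.iSup_natCast, inf_top_eq]
    rw [this]
    exact tendsto_atTop_iSup fun n m hnm => lintegral_mono fun x =>
      min_le_min_left _ (by exact_mod_cast hnm)
  have mono : Monotone fun k : ℕ => ∫⁻ x, min (g x) k := fun n m hnm => lintegral_mono fun x =>
    min_le_min_left _ (by exact_mod_cast hnm)
  have monf : Monotone fun k : ℕ => ∫⁻ x, min (f x) k := fun n m hnm => lintegral_mono fun x =>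
    min_le_min_left _ (by exact_mod_cast hnm)
  have key : ∀ n m : ℕ, (∫⁻ x, min (f x) n) ^ p * (∫⁻ x, min (g x) m) ^ q ≤ ∫⁻ x, h x := by
    intro n m
    have key := pl_one_real hp hq hpq (fun x => (min (f x) n).toReal)
      (fun x => (min (g x) m).toReal) h
      (hf.min measurable_const).ennreal_toReal (hg.min measurable_const).ennreal_toReal hh
      (fun _ => ENNReal.toReal_nonneg) (fun _ => ENNReal.toReal_nonneg)
      ⟨n, forall_mem_range.2 fun x =>
        ENNReal.toReal_le_of_le_ofReal (Nat.cast_nonneg n) (by simp)⟩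
      ⟨m, forall_mem_range.2 fun x =>
        ENNReal.toReal_le_of_le_ofReal (Nat.cast_nonneg m) (by simp)⟩
      (fun x y => by
        rw [ENNReal.ofReal_mul (Real.rpow_nonneg ENNReal.toReal_nonneg _),
          ← ENNReal.ofReal_rpow_of_nonneg ENNReal.toReal_nonneg hp.le,
          ← ENNReal.ofReal_rpow_of_nonneg ENNReal.toReal_nonneg hq.le]
        refine le_trans (mul_le_mul' ?_ ?_) (H x y)
        · exact ENNReal.rpow_le_rpow (ENNReal.ofReal_toReal_le.trans (min_le_left _ _)) hp.le
        · exact ENNReal.rpow_le_rpow (ENNReal.ofReal_toReal_le.trans (min_le_left _ _)) hq.le)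
    refine le_trans (le_of_eq ?_) key
    congr 2 <;> refine lintegral_congr fun x => (ENNReal.ofReal_toReal ?_).symm <;>
      exact ne_top_of_le_ne_top (ENNReal.natCast_ne_top _) (min_le_right _ _)
  have e : ∀ {F : ℕ → ℝ≥0∞} {L : ℝ≥0∞} {s : ℝ}, 0 < s → Monotone F → Tendsto F atTop (𝓝 L) →
      L ^ s = ⨆ k, F k ^ s := fun {F L s} hs hm hT =>
    tendsto_nhds_unique ((ENNReal.continuous_rpow_const.tendsto L).comp hT)
      (tendsto_atTop_iSup fun i j hij => ENNReal.rpow_le_rpow (hm hij) hs.le)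
  rw [e hp monf (trunc f hf), e hq mono (trunc g hg), ENNReal.iSup_mul]
  refine iSup_le fun n => ?_
  rw [ENNReal.mul_iSup]
  exact iSup_le fun m => key n m

/-- Weighted Prékopa–Leindler inequality on `Fin n → ℝ`. -/
theorem pl_pi {p q : ℝ} (hp : 0 < p) (hq : 0 < q) (hpq : p + q = 1) :
    ∀ (n : ℕ) (f g h : (Fin n → ℝ) → ℝ≥0∞), Measurable f → Measurable g → Measurable h →
      (∀ x y, f x ^ p * g y ^ q ≤ h (p • x + q • y)) →
      (∫⁻ x, f x) ^ p * (∫⁻ x, g x) ^ q ≤ ∫⁻ x, h x := by
  intro n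
  induction n with
  | zero =>
    intro f g h hf hg hh H
    simp only [lintegral_unique, volume_pi, Measure.pi_empty_univ, mul_one]
    exact (H _ _).trans (le_of_eq (by congr 1; exact Subsingleton.elim _ _))
  | succ n ih =>
    intro f g h hf hg hh H
    let e := MeasurableEquiv.piFinSuccAbove (fun _ : Fin (n + 1) => ℝ) 0
    have he := (volume_preserving_piFinSuccAbove (fun _ : Fin (n + 1) => ℝ) 0).symm
    have conv : ∀ F : (Fin (n + 1) → ℝ) → ℝ≥0∞, Measurable F →
        ∫⁻ x, F x = ∫⁻ a : ℝ, ∫⁻ v : Fin n → ℝ, F (e.symm (a, v)) := by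
      intro F hF
      rw [← he.lintegral_comp hF, Measure.volume_eq_prod, lintegral_prod]
      exact (hF.comp e.symm.measurable).aemeasurable
    rw [conv f hf, conv g hg, conv h hh]
    have m1 : ∀ F : (Fin (n + 1) → ℝ) → ℝ≥0∞, Measurable F →
        Measurable fun a : ℝ => ∫⁻ v : Fin n → ℝ, F (e.symm (a, v)) :=
      fun F hF => (hF.comp e.symm.measurable).lintegral_prod_right'
    refine pl_one hp hq hpq _ _ _ (m1 f hf) (m1 g hg) (m1 h hh) fun a b => ?_
    refine ih _ _ _ (hf.comp (e.symm.measurable.comp measurable_prodMk_left))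
      (hg.comp (e.symm.measurable.comp measurable_prodMk_left))
      (hh.comp (e.symm.measurable.comp measurable_prodMk_left)) fun v w => ?_
    refine (H _ _).trans (le_of_eq ?_)
    congr 1
    funext i
    refine Fin.cases ?_ (fun j => ?_) i <;>
      simp [e, MeasurableEquiv.piFinSuccAbove_symm_apply]

/-- Multiplicative Brunn–Minkowski inequality. -/
theorem bm_mult {d : ℕ} {p q : ℝ} (hp : 0 < p) (hq : 0 < q) (hpq : p + q = 1)
    {A B C : Set (EuclideanSpace ℝ (Fin d))} (hA : MeasurableSet A) (hB : MeasurableSet B)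
    (hC : MeasurableSet C) (H : ∀ x ∈ A, ∀ y ∈ B, p • x + q • y ∈ C) :
    volume A ^ p * volume B ^ q ≤ volume C := by
  have hm := PiLp.volume_preserving_toLp (Fin d)
  rw [← lintegral_indicator_one hA, ← lintegral_indicator_one hB, ← lintegral_indicator_one hC,
    ← hm.lintegral_comp (measurable_one.indicator hA),
    ← hm.lintegral_comp (measurable_one.indicator hB),
    ← hm.lintegral_comp (measurable_one.indicator hC)]
  refine pl_pi hp hq hpq d _ _ _ ((measurable_one.indicator hA).comp hm.measurable)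
    ((measurable_one.indicator hB).comp hm.measurable)
    ((measurable_one.indicator hC).comp hm.measurable) fun x y => ?_
  by_cases hx : WithLp.toLp 2 x ∈ A
  · by_cases hy : WithLp.toLp 2 y ∈ B
    · rw [indicator_of_mem hx, indicator_of_mem hy, indicator_of_mem]
      · simp
      · simpa [WithLp.toLp_add, WithLp.toLp_smul] using H _ hx _ hy
    · simp [indicator_of_notMem hy, ENNReal.zero_rpow_of_pos hq]
  · simp [indicator_of_notMem hx, ENNReal.zero_rpow_of_pos hp]

/-- Brunn–Minkowski inequality for a set enlarged by a ball. -/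
theorem bm_thickening {d : ℕ} (hd : 0 < d) {A : Set (EuclideanSpace ℝ (Fin d))}
    (hA : MeasurableSet A) (hAfin : volume A ≠ ⊤) (hApos : volume A ≠ 0) {s : ℝ} (hs : 0 < s)
    {C : Set (EuclideanSpace ℝ (Fin d))} (hC : MeasurableSet C) (hCfin : volume C ≠ ⊤)
    (H : ∀ x ∈ A, ∀ y, ‖y - x‖ < s → y ∈ C) :
    ((volume A).toReal ^ ((d : ℝ)⁻¹) + s *
      (volume (Metric.ball (0 : EuclideanSpace ℝ (Fin d)) 1)).toReal ^ ((d : ℝ)⁻¹)) ^ d
      ≤ (volume C).toReal := by
  haveI : Nonempty (Fin d) := ⟨⟨0, hd⟩⟩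
  set ω := (volume (Metric.ball (0 : EuclideanSpace ℝ (Fin d)) 1)).toReal
  have hω : 0 < ω := ENNReal.toReal_pos (Metric.measure_ball_pos volume _ one_pos).ne'
    measure_ball_lt_top.ne
  set α := (volume A).toReal
  have hα : 0 < α := ENNReal.toReal_pos hApos hAfin
  set a := α ^ ((d : ℝ)⁻¹)
  set b := s * ω ^ ((d : ℝ)⁻¹)
  have ha : 0 < a := Real.rpow_pos_of_pos hα _
  have hb : 0 < b := mul_pos hs (Real.rpow_pos_of_pos hω _)
  set p := a / (a + b)
  set q := b / (a + b)
  have hp : 0 < p := by positivity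
  have hq : 0 < q := by positivity
  have hpq : p + q = 1 := by rw [← add_div]; exact div_self (by positivity)
  have key := bm_mult hp hq hpq (hA.const_smul₀ p⁻¹) measurableSet_ball hC
    (B := Metric.ball (0 : EuclideanSpace ℝ (Fin d)) (s / q)) fun x hx y hy => by
      obtain ⟨x', hx', rfl⟩ := hx
      refine H x' hx' _ ?_
      rw [smul_inv_smul₀ hp.ne', add_sub_cancel_left, norm_smul, Real.norm_eq_abs,
        abs_of_pos hq]
      rw [mem_ball_zero_iff, lt_div_iff₀ hq] at hy
      linarith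
  have e1 : (volume (p⁻¹ • A)).toReal = (a / p) ^ d := by
    rw [Measure.addHaar_smul, finrank_euclideanSpace_fin, ENNReal.toReal_mul,
      ENNReal.toReal_ofReal (abs_nonneg _), abs_of_pos (by positivity), div_pow,
      show a ^ d = α from Real.rpow_inv_natCast_pow hα.le hd.ne', inv_pow]
    ring
  have e2 : (volume (Metric.ball (0 : EuclideanSpace ℝ (Fin d)) (s / q))).toReal = (b / q) ^ d := by
    have hbd : b ^ d = s ^ d * ω := by
      change (s * ω ^ ((d : ℝ)⁻¹)) ^ d = _
      rw [mul_pow, Real.rpow_inv_natCast_pow hω.le hd.ne']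
    rw [Measure.addHaar_ball_of_pos volume _ (by positivity), finrank_euclideanSpace_fin,
      ENNReal.toReal_mul, ENNReal.toReal_ofReal (by positivity)]
    change (s / q) ^ d * ω = _
    rw [div_pow b q, hbd, div_pow, div_mul_eq_mul_div]
  have h2 := ENNReal.toReal_mono hCfin key
  rw [ENNReal.toReal_mul, ← ENNReal.toReal_rpow, ← ENNReal.toReal_rpow, e1, e2,
    show a / p = a + b from div_div_cancel₀ ha.ne', show b / q = a + b from div_div_cancel₀ hb.ne',
    ← Real.rpow_add (by positivity), hpq, Real.rpow_one] at h2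
  exact h2

end Vale.Agent.P219
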