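import Mathlib
import Vale.Agent.P219.BM

/-! The sharp gradient inequality of Federer–Fleming and Maz'ya, from Brunn–Minkowski. -/

open MeasureTheory Set Filter Metric
open scoped ENNReal Topology

namespace Vale.Agent.P219

noncomputable section

/-- Euclidean space. -/
abbrev Space (n : ℕ) : Type := EuclideanSpace ℝ (Fin n)

/-- The volume of the Euclidean unit ball. -/
def ballVol (n : ℕ) : ℝ := (volume (ball (0 : Space n) 1)).toReal

lemma ballVol_pos {n : ℕ} (hn : 0 < n) : 0 < ballVol n := by
  have : Nonempty (Fin n) := ⟨⟨0, hn⟩⟩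
  exact ENNReal.toReal_pos (measure_ball_pos volume _ one_pos).ne' measure_ball_lt_top.ne

variable {n : ℕ}

/-- The largest value of `u` within distance `h`. -/
def supBall (u : Space n → ℝ) (h : ℝ) (x : Space n) : ℝ :=
  sSup ((fun z => u (x + z)) '' closedBall (0 : Space n) h)

lemma continuous_supBall {u : Space n → ℝ} (hu : Continuous u) (h : ℝ) :
    Continuous (supBall u h) :=
  (isCompact_closedBall (0 : Space n) h).continuous_sSup (by fun_prop)

lemma le_supBall {u : Space n → ℝ} (hu : Continuous u) {h : ℝ} {x z : Space n} (hz : ‖z‖ ≤ h) :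
    u (x + z) ≤ supBall u h x :=
  le_csSup ((isCompact_closedBall (0 : Space n) h).image (by fun_prop)).bddAbove
    ⟨z, mem_closedBall_zero_iff.2 hz, rfl⟩

lemma exists_supBall {u : Space n → ℝ} (hu : Continuous u) {h : ℝ} (hh : 0 ≤ h) (x : Space n) :
    ∃ z, ‖z‖ ≤ h ∧ supBall u h x = u (x + z) := by
  have hK := (isCompact_closedBall (0 : Space n) h).image (f := fun z => u (x + z)) (by fun_prop)
  obtain ⟨z, hz, e⟩ := hK.sSup_mem ⟨_, 0, mem_closedBall_self hh, rfl⟩
  exact ⟨z, mem_closedBall_zero_iff.1 hz, e.symm⟩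

lemma two_terms_le {a t : ℝ} (ha : 0 ≤ a) (ht : 0 ≤ t) :
    ∀ n : ℕ, a ^ n + n * a ^ (n - 1) * t ≤ (a + t) ^ n
  | 0 => by simp
  | n + 1 => by
    have ih := two_terms_le ha ht n
    have h1 : (a ^ n + n * a ^ (n - 1) * t) * (a + t) ≤ (a + t) ^ (n + 1) := by
      rw [pow_succ]; exact mul_le_mul_of_nonneg_right ih (by positivity)
    rcases Nat.eq_zero_or_pos n with hn | hn
    · subst hn; simp
    have e : a ^ (n - 1) * a = a ^ n := by rw [← pow_succ, show n - 1 + 1 = n by omega]
    have h2 : 0 ≤ (n : ℝ) * a ^ (n - 1) * t * t := by positivity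
    rw [Nat.add_sub_cancel]
    push_cast
    linear_combination h1 + h2 - ((n : ℝ) * t) * e

/-- The growth of a super-level set under enlargement. -/
lemma levelset_step (hn : 2 ≤ n) {u : Space n → ℝ} (hu : Continuous u) (hc : HasCompactSupport u)
    {h t : ℝ} (hh : 0 < h) (ht : 0 < t) :
    volume {x | t < u x} + ENNReal.ofReal (h * n * ballVol n ^ ((n : ℝ)⁻¹))
      * volume {x | t < u x} ^ (1 - (n : ℝ)⁻¹) ≤ volume {x | t < supBall u h x} := by
  set A := {x | t < u x}
  set C := {x | t < supBall u h x}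
  have hn' : 0 < n := by omega
  have hAC : A ⊆ C := fun x (hx : t < u x) =>
    lt_of_lt_of_le hx (by simpa using le_supBall hu (x := x) (z := 0) (by simpa using hh.le))
  have hAs : A ⊆ tsupport u := fun x (hx : t < u x) =>
    subset_tsupport u (show u x ≠ 0 from (ht.trans hx).ne')
  have hAfin : volume A ≠ ⊤ := ne_top_of_le_ne_top hc.measure_lt_top.ne (measure_mono hAs)
  rcases eq_or_ne (volume A) 0 with h0 | h0
  · have he : 0 < 1 - (n : ℝ)⁻¹ := by
      have : (1 : ℝ) < n := by exact_mod_cast (by omega : 1 < n)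
      linarith [inv_lt_one_of_one_lt₀ this]
    simp [h0, ENNReal.zero_rpow_of_pos he]
  by_cases hCfin : volume C = ⊤
  · rw [hCfin]; exact le_top
  have key := bm_thickening hn' (isOpen_lt continuous_const hu).measurableSet hAfin h0 hh
    (C := C) (isOpen_lt continuous_const (continuous_supBall hu h)).measurableSet hCfin
    fun x hx y hy => by
      have := le_supBall hu (x := y) (z := x - y) (h := h) (by rw [norm_sub_rev]; exact hy.le)
      rw [add_sub_cancel] at this
      exact lt_of_lt_of_le hx this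
  set α := (volume A).toReal with hα
  have hα0 : 0 < α := ENNReal.toReal_pos h0 hAfin
  have h2 := (two_terms_le (Real.rpow_nonneg hα0.le ((n : ℝ)⁻¹))
    (mul_nonneg hh.le (Real.rpow_nonneg (ballVol_pos hn').le ((n : ℝ)⁻¹))) n).trans key
  have e2 : (α ^ ((n : ℝ)⁻¹)) ^ (n - 1) = α ^ (1 - (n : ℝ)⁻¹) := by
    rw [← Real.rpow_natCast, ← Real.rpow_mul hα0.le, Nat.cast_sub (by omega), Nat.cast_one]
    congr 1
    field_simp
  rw [Real.rpow_inv_natCast_pow hα0.le hn'.ne', e2] at h2
  have hB := (ballVol_pos hn').le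
  calc volume A + ENNReal.ofReal (h * n * ballVol n ^ ((n : ℝ)⁻¹)) * volume A ^ (1 - (n : ℝ)⁻¹)
      = ENNReal.ofReal (α + h * n * ballVol n ^ ((n : ℝ)⁻¹) * α ^ (1 - (n : ℝ)⁻¹)) := by
        rw [ENNReal.ofReal_add hα0.le (by positivity),
          ENNReal.ofReal_mul (p := h * n * ballVol n ^ ((n : ℝ)⁻¹)) (by positivity),
          ← ENNReal.ofReal_rpow_of_pos hα0, hα, ENNReal.ofReal_toReal hAfin]
    _ ≤ ENNReal.ofReal ((volume C).toReal) := ENNReal.ofReal_le_ofReal (by
        unfold ballVol at *; nlinarith)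
    _ = volume C := ENNReal.ofReal_toReal hCfin

/-- The layer form of Minkowski's inequality. -/
lemma minkowski_layer (hn : 2 ≤ n) {u : Space n → ℝ} (hu : Continuous u)
    (hc : HasCompactSupport u) :
    (∫⁻ x, ENNReal.ofReal (u x) ^ ((n : ℝ) / (n - 1))) ^ (1 - (n : ℝ)⁻¹) ≤
      ∫⁻ t in Ioi (0 : ℝ), volume {x | t < u x} ^ (1 - (n : ℝ)⁻¹) := by
  have hnR : (2 : ℝ) ≤ n := by exact_mod_cast hn
  set p : ℝ := (n : ℝ) / (n - 1) with hp
  have hp1 : 0 < p - 1 := by
    have : p - 1 = 1 / ((n : ℝ) - 1) := by rw [hp, div_sub_one (by linarith)]; ring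
    have : (0 : ℝ) < n - 1 := by linarith
    rw [‹p - 1 = _›]; positivity
  have hp0 : 0 < p := by linarith
  have hpn : (p - 1) * n = p := by
    have h1 : ((n : ℝ) - 1) ≠ 0 := by linarith
    rw [hp]; field_simp; ring
  have hq : Real.HolderConjugate (n : ℝ) p := by
    rw [Real.holderConjugate_iff]
    refine ⟨by linarith, ?_⟩
    have h1 : ((n : ℝ) - 1) ≠ 0 := by linarith
    rw [hp]; field_simp; ring
  have hinv : 1 - (n : ℝ)⁻¹ = 1 / p := by
    rw [hp, one_div_div, sub_div, div_self (by linarith), one_div]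
  set F : Space n → ℝ≥0∞ := fun x => ENNReal.ofReal (u x) with hF
  have hFm : Measurable F := hu.measurable.ennreal_ofReal
  set A := ∫⁻ x, F x ^ p with hA
  set I := ∫⁻ t in Ioi (0 : ℝ), volume {x | t < u x} ^ (1 - (n : ℝ)⁻¹)
  have hAtop : A ≠ ⊤ := by
    obtain ⟨M, hM⟩ := hu.bounded_above_of_compact_support hc
    refine ne_top_of_le_ne_top ?_ (lintegral_mono (g := (tsupport u).indicator fun _ =>
      ENNReal.ofReal M ^ p) fun x => ?_)
    · rw [lintegral_indicator (isClosed_tsupport u).measurableSet, setLIntegral_const]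
      exact ENNReal.mul_ne_top (ENNReal.rpow_ne_top_of_nonneg hp0.le ENNReal.ofReal_ne_top)
        hc.measure_lt_top.ne
    · by_cases hx : x ∈ tsupport u
      · rw [indicator_of_mem hx]
        exact ENNReal.rpow_le_rpow (ENNReal.ofReal_le_ofReal ((le_abs_self _).trans (hM x))) hp0.le
      · simp [F, image_eq_zero_of_notMem_tsupport hx, hp0]
  have hb : A ≤ A ^ ((n : ℝ)⁻¹) * I := by
    have hlay : ∀ x, F x ^ p = ∫⁻ t in Ioi (0 : ℝ), F x ^ (p - 1) * (Iio (u x)).indicator 1 t := by
      intro x
      rw [lintegral_const_mul' _ _ (ENNReal.rpow_ne_top_of_nonneg hp1.le ENNReal.ofReal_ne_top),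
        lintegral_indicator_one measurableSet_Iio, Measure.restrict_apply measurableSet_Iio,
        inter_comm, Ioi_inter_Iio, Real.volume_Ioo, sub_zero]
      rcases eq_or_ne (F x) 0 with hz | hz
      · simp only [F] at hz; simp [F, hz, hp0, hp1]
      · show F x ^ p = F x ^ (p - 1) * F x
        conv_lhs => rw [← sub_add_cancel p 1]
        rw [ENNReal.rpow_add _ _ hz ENNReal.ofReal_ne_top, ENNReal.rpow_one]
    have hm : Measurable fun z : Space n × ℝ =>
        F z.1 ^ (p - 1) * (Iio (u z.1)).indicator 1 z.2 := by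
      refine ((hFm.comp measurable_fst).pow_const _).mul ?_
      have : (fun z : Space n × ℝ => (Iio (u z.1)).indicator (1 : ℝ → ℝ≥0∞) z.2) =
          {z : Space n × ℝ | z.2 < u z.1}.indicator 1 := by
        funext z; simp [indicator_apply]
      rw [this]
      exact measurable_one.indicator (measurableSet_lt measurable_snd (hu.measurable.comp measurable_fst))
    rw [hA]
    conv_lhs => simp only [hlay]
    rw [lintegral_lintegral_swap hm.aemeasurable, ← lintegral_const_mul' _ _ (ENNReal.rpow_ne_top_of_nonneg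
      (by positivity) hAtop)]
    refine lintegral_mono fun t => ?_
    have h := ENNReal.lintegral_mul_le_Lp_mul_Lq volume hq
      (f := fun x => F x ^ (p - 1)) (g := {x | t < u x}.indicator 1)
      (hFm.pow_const _).aemeasurable
      (measurable_one.indicator (measurableSet_lt measurable_const hu.measurable)).aemeasurable
    refine le_trans (le_of_eq ?_) (h.trans (le_of_eq ?_))
    · exact lintegral_congr fun x => by simp [indicator_apply]
    · congr 1
      · rw [one_div]
        congr 1
        exact lintegral_congr fun x => by rw [← ENNReal.rpow_mul, hpn]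
      · rw [hinv]
        congr 1
        rw [← lintegral_indicator_one (measurableSet_lt measurable_const hu.measurable)]
        refine lintegral_congr fun x => ?_
        by_cases hx : t < u x <;> simp [hx, hp0]
  rcases eq_or_ne A 0 with hz | hz
  · rw [hz, ENNReal.zero_rpow_of_pos (by rw [hinv]; positivity)]
    exact zero_le
  · have h1 : A ^ (1 - (n : ℝ)⁻¹) * A ^ ((n : ℝ)⁻¹) ≤ I * A ^ ((n : ℝ)⁻¹) := by
      rw [← ENNReal.rpow_add _ _ hz hAtop, sub_add_cancel, ENNReal.rpow_one, mul_comm I]
      exact hb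
    exact (ENNReal.mul_le_mul_iff_left (ENNReal.rpow_pos (pos_iff_ne_zero.2 hz) hAtop).ne'
      (ENNReal.rpow_ne_top_of_nonneg (by positivity) hAtop)).1 h1

/-- The sharp gradient inequality for compactly supported nonnegative functions of class `C¹`. -/
theorem sobolev (hn : 2 ≤ n) {u : Space n → ℝ} (hu : ContDiff ℝ 1 u) (hc : HasCompactSupport u)
    (h0 : ∀ x, 0 ≤ u x) :
    ENNReal.ofReal (n * ballVol n ^ ((n : ℝ)⁻¹)) *
      (∫⁻ x, ENNReal.ofReal (u x) ^ ((n : ℝ) / (n - 1))) ^ (1 - (n : ℝ)⁻¹) ≤
      ENNReal.ofReal (∫ x, ‖fderiv ℝ u x‖) := by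
  refine le_trans (mul_le_mul' le_rfl (minkowski_layer hn hu.continuous hc)) ?_
  set I := ∫⁻ t in Ioi (0 : ℝ), volume {x | t < u x} ^ (1 - (n : ℝ)⁻¹)
  have hn0 : 0 < n := by omega
  have hB := (ballVol_pos hn0).le
  have hex : Measurable fun t : ℝ => volume {x | t < u x} :=
    Antitone.measurable fun a b hab => measure_mono fun x hx => lt_of_le_of_lt hab hx
  obtain ⟨Lc, hLc⟩ := hu.lipschitzWith_of_hasCompactSupport hc one_ne_zero
  -- difference quotients
  let W : ℕ → Space n → ℝ := fun k x =>
    (supBall u (1 / (k + 1 : ℝ)) x - u x) / (1 / (k + 1 : ℝ))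
  have hpos : ∀ k : ℕ, (0 : ℝ) < 1 / (k + 1 : ℝ) := fun k => by positivity
  have hW0 : ∀ k x, 0 ≤ W k x := fun k x => div_nonneg (sub_nonneg.2
    (by simpa using le_supBall hu.continuous (x := x) (z := 0) (by simpa using (hpos k).le))) (hpos k).le
  have hWc : ∀ k, Continuous (W k) := fun k =>
    ((continuous_supBall hu.continuous _).sub hu.continuous).div_const _
  let K : Set (Space n) := cthickening 1 (tsupport u)
  have hK : IsCompact K := hc.isCompact.cthickening
  have hW1 : ∀ k x, W k x ≤ K.indicator (fun _ => (Lc : ℝ)) x := by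
    intro k x
    obtain ⟨z, hz, e⟩ := exists_supBall hu.continuous (hpos k).le x
    have hk1 : (1 : ℝ) / (k + 1) ≤ 1 := by rw [div_le_one (by positivity)]; simp
    by_cases hx : x ∈ K
    · rw [indicator_of_mem hx, div_le_iff₀ (hpos k), e]
      have := hLc.dist_le_mul (x + z) x
      rw [Real.dist_eq, dist_eq_norm, add_sub_cancel_left] at this
      nlinarith [le_abs_self (u (x + z) - u x), Lc.coe_nonneg]
    · rw [indicator_of_notMem hx]
      have h1 : u x = 0 := image_eq_zero_of_notMem_tsupport fun hm => hx (self_subset_cthickening _ hm)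
      have h2 : u (x + z) = 0 := image_eq_zero_of_notMem_tsupport fun hm => hx
        (mem_cthickening_of_dist_le x (x + z) 1 _ hm (by
          rw [dist_eq_norm, sub_add_cancel_left, norm_neg]; linarith))
      show (supBall u (1 / (k + 1 : ℝ)) x - u x) / (1 / (k + 1 : ℝ)) ≤ 0
      rw [e, h1, h2]; simp
  have hKint : Integrable (K.indicator fun _ => (Lc : ℝ)) :=
    (integrable_indicator_iff hK.isClosed.measurableSet).2 (integrableOn_const hK.measure_lt_top.ne)
  have hWint : ∀ k, Integrable (W k) := fun k => hKint.mono' (hWc k).aestronglyMeasurable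
    (.of_forall fun x => by rw [Real.norm_eq_abs, abs_of_nonneg (hW0 k x)]; exact hW1 k x)
  have hDint : Integrable fun x => ‖fderiv ℝ u x‖ :=
    ((hu.continuous_fderiv one_ne_zero).norm).integrable_of_hasCompactSupport (hc.fderiv ℝ).norm
  have hlim : Tendsto (fun k => ∫ x, max (W k x - ‖fderiv ℝ u x‖) 0) atTop (𝓝 0) := by
    have := tendsto_integral_of_dominated_convergence (μ := (volume : Measure (Space n)))
      (F := fun k x => max (W k x - ‖fderiv ℝ u x‖) 0) (f := fun _ => (0 : ℝ))
      (K.indicator fun _ => (Lc : ℝ))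
      (fun k => (((hWc k).sub (hu.continuous_fderiv one_ne_zero).norm).max
        continuous_const).aestronglyMeasurable) hKint
      (fun k => .of_forall fun x => by
        rw [Real.norm_eq_abs, abs_of_nonneg (le_max_right _ _)]
        exact max_le (by linarith [hW1 k x, norm_nonneg (fderiv ℝ u x)]) ((hW0 k x).trans (hW1 k x)))
      (.of_forall fun x => ?_)
    · simpa using this
    · rw [Metric.tendsto_atTop]
      intro ε hε
      have hd := ((hu.differentiable one_ne_zero) x).hasFDerivAt
      rw [hasFDerivAt_iff_isLittleO_nhds_zero] at hd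
      obtain ⟨δ, hδ, hb⟩ := Metric.eventually_nhds_iff.1 (hd.def (half_pos hε))
      obtain ⟨N, hN⟩ := exists_nat_one_div_lt hδ
      refine ⟨N, fun k hk => ?_⟩
      obtain ⟨z, hz, e⟩ := exists_supBall hu.continuous (hpos k).le x
      have hk' : (1 : ℝ) / (k + 1) ≤ 1 / (N + 1) := by gcongr
      have h1 := hb (show dist z 0 < δ by rw [dist_zero_right]; linarith)
      have h2 : W k x ≤ ‖fderiv ℝ u x‖ + ε / 2 := by
        simp only [W]
        rw [div_le_iff₀ (hpos k), e]
        have h3 := (le_abs_self _).trans ((fderiv ℝ u x).le_opNorm z)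
        rw [Real.norm_eq_abs] at h1
        have h4 := (abs_le.1 h1).2
        calc u (x + z) - u x ≤ (‖fderiv ℝ u x‖ + ε / 2) * ‖z‖ := by linarith
          _ ≤ _ := mul_le_mul_of_nonneg_left hz (by positivity)
      rw [Real.dist_0_eq_abs, abs_of_nonneg (le_max_right _ _)]
      exact max_lt (by linarith) hε
  have step : ∀ k, ENNReal.ofReal (n * ballVol n ^ ((n : ℝ)⁻¹)) * I ≤
      ENNReal.ofReal (∫ x, ‖fderiv ℝ u x‖ + max (W k x - ‖fderiv ℝ u x‖) 0) := by
    intro k
    refine le_trans ?_ (ENNReal.ofReal_le_ofReal (integral_mono (hWint k)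
      (hDint.add (((hWint k).sub hDint).pos_part)) fun x => by
        show W k x ≤ ‖fderiv ℝ u x‖ + max (W k x - ‖fderiv ℝ u x‖) 0
        linarith [le_max_left (W k x - ‖fderiv ℝ u x‖) 0]))
    set h := (1 : ℝ) / (k + 1)
    have hh : 0 < h := hpos k
    have hv0 : ∀ x, 0 ≤ supBall u h x := fun x =>
      (h0 x).trans (by simpa using le_supBall hu.continuous (x := x) (z := 0) (by simpa using hh.le))
    have s1 : (∫⁻ t in Ioi (0 : ℝ), volume {x | t < u x}) + ENNReal.ofReal h *
        (ENNReal.ofReal (n * ballVol n ^ ((n : ℝ)⁻¹)) * I) ≤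
        ∫⁻ t in Ioi (0 : ℝ), volume {x | t < supBall u h x} := by
      rw [← mul_assoc, ← ENNReal.ofReal_mul hh.le, ← mul_assoc,
        ← lintegral_const_mul' _ _ ENNReal.ofReal_ne_top, ← lintegral_add_left hex]
      exact setLIntegral_mono' measurableSet_Ioi fun t ht =>
        levelset_step hn hu.continuous hc hh ht
    rw [← lintegral_eq_lintegral_meas_lt volume (.of_forall h0) hu.continuous.aemeasurable,
      ← lintegral_eq_lintegral_meas_lt volume (.of_forall hv0)
        (continuous_supBall hu.continuous h).aemeasurable] at s1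
    have hvi : ∀ x, supBall u h x = u x + h * W k x := fun x => by
      show _ = u x + h * ((supBall u h x - u x) / h)
      field_simp; ring
    have hui : Integrable u := hu.continuous.integrable_of_hasCompactSupport hc
    rw [← ofReal_integral_eq_lintegral_ofReal hui (.of_forall h0)] at s1
    rw [← ofReal_integral_eq_lintegral_ofReal ((hui.add ((hWint k).const_mul h)).congr (.of_forall fun x => (hvi x).symm))
      (.of_forall hv0)] at s1
    simp only [hvi] at s1
    rw [integral_add hui ((hWint k).const_mul h), integral_const_mul,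
      ENNReal.ofReal_add (integral_nonneg h0) (mul_nonneg hh.le (integral_nonneg (hW0 k))),
      ENNReal.ofReal_mul hh.le] at s1
    exact (ENNReal.mul_le_mul_iff_right (ENNReal.ofReal_pos.2 hh).ne' ENNReal.ofReal_ne_top).1
      ((ENNReal.add_le_add_iff_left ENNReal.ofReal_ne_top).1 s1)
  refine ge_of_tendsto' (x := atTop) ?_ step
  refine ENNReal.tendsto_ofReal ?_
  have : ∀ k, ∫ x, ‖fderiv ℝ u x‖ + max (W k x - ‖fderiv ℝ u x‖) 0 =
      (∫ x, ‖fderiv ℝ u x‖) + ∫ x, max (W k x - ‖fderiv ℝ u x‖) 0 := fun k =>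
    integral_add hDint ((hWint k).sub hDint).pos_part
  simp only [this]
  simpa using hlim.const_add (∫ x, ‖fderiv ℝ u x‖)

end

end Vale.Agent.P219
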