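import Mathlib
import Vale.Agent.P219.Sobolev

/-! Rotationally symmetric metrics `e^{2 w(|x|)} |dx|²` on Euclidean space. -/

open MeasureTheory
open scoped ENNReal

namespace Vale.Agent.P219

noncomputable section

variable {n : ℕ}

/-- Partial derivative. -/
def pd (i : Fin n) (u : Space n → ℝ) (x : Space n) : ℝ :=
  fderiv ℝ u x (EuclideanSpace.single i (1 : ℝ))

/-- Euclidean divergence. -/
def divg (Y : Space n → Space n) (x : Space n) : ℝ := ∑ i, pd i (fun y => Y y i) x

/-- The density of the hypersurface measure of `e^{2 w(|x|)} |dx|²`. -/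
def areaDensity (w : ℝ → ℝ) (x : Space n) : ℝ := Real.exp (((n : ℝ) - 1) * w ‖x‖)

/-- The volume of a set in the metric `e^{2 w(|x|)} |dx|²`. -/
def gVol (w : ℝ → ℝ) (Ω : Set (Space n)) : ℝ := ∫ x in Ω, Real.exp ((n : ℝ) * w ‖x‖)

/-- The perimeter of a set in the metric `e^{2 w(|x|)} |dx|²`: the supremum of the integrals of
the divergence over continuously differentiable compactly supported vector fields of norm at
most one, written in coordinates. -/
def gPer (w : ℝ → ℝ) (Ω : Set (Space n)) : ℝ≥0∞ :=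
  ⨆ (Y : Space n → Space n) (_ : ContDiff ℝ 1 Y ∧ HasCompactSupport Y ∧ ∀ x, ‖Y x‖ ≤ 1),
    ENNReal.ofReal (∫ x in Ω, divg (fun y => areaDensity w y • Y y) x)

/-- Both sectional curvatures of `e^{2 w(|x|)} |dx|²`, radial and tangential, are at most `κ`
on the ball of radius `R`, away from the origin. -/
def SecLE (w : ℝ → ℝ) (κ R : ℝ) : Prop :=
  ∀ r : ℝ, 0 < r → r < R →
    -deriv (fun s => 1 + s * deriv w s) r / (r * Real.exp (2 * w r)) ≤ κ ∧
    (1 - (1 + r * deriv w r) ^ 2) / (r * Real.exp (w r)) ^ 2 ≤ κ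

/-- `r` for `κ = 0` and `sinh(√(-κ) r)/√(-κ)` for `κ < 0`. -/
def snK (κ r : ℝ) : ℝ :=
  if κ = 0 then r else Real.sinh (Real.sqrt (-κ) * r) / Real.sqrt (-κ)

/-- The area of the sphere of radius `r` in the space form of curvature `κ`. -/
def modelArea (n : ℕ) (κ r : ℝ) : ℝ := n * ballVol n * snK κ r ^ (n - 1)

/-- The volume of the ball of radius `r` in the space form of curvature `κ`. -/
def modelVol (n : ℕ) (κ r : ℝ) : ℝ :=
  n * ballVol n * ∫ t in (0 : ℝ)..r, snK κ t ^ (n - 1)

end

end Vale.Agent.P219
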