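import Mathlib
import Vale.Agent.P219.Defs

/-! Consequences of the curvature bound for rotationally symmetric metrics. -/

open MeasureTheory Set Filter Metric
open scoped ENNReal Topology

namespace Vale.Agent.P219

noncomputable section

variable {n : ℕ}

/-- The radial and tangential bounds force an increasing conformal factor. -/
lemma curvature_consequences {w : ℝ → ℝ} (hw : ContDiff ℝ 2 w) {κ R : ℝ} (hκ : κ ≤ 0)
    (h : SecLE w κ R) {r : ℝ} (hr : 0 < r) (hrR : r < R) :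
    0 ≤ deriv w r ∧ Real.sqrt (-κ) * (r * Real.exp (w r)) ≤ 1 + r * deriv w r := by
  have hd : ContDiff ℝ 1 (deriv w) :=
    ContDiff.deriv' (n := 1) (hw.of_le (by norm_num))
  set p : ℝ → ℝ := fun s => 1 + s * deriv w s
  have hdiff : Differentiable ℝ p :=
    (differentiable_const 1).add (differentiable_id.mul (hd.differentiable (by norm_num)))
  have hmono := monotoneOn_of_deriv_nonneg (convex_Icc 0 r) hdiff.continuous.continuousOn
    hdiff.differentiableOn (fun s hs => by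
      rw [interior_Icc] at hs
      have h1 := (h s hs.1 (hs.2.trans hrR)).1
      have hden : 0 < s * Real.exp (2 * w s) := mul_pos hs.1 (Real.exp_pos _)
      have h2 : -deriv p s / (s * Real.exp (2 * w s)) ≤ 0 := h1.trans hκ
      rw [div_le_iff₀ hden] at h2
      linarith)
  have hp1 : 1 ≤ p r := by
    have := hmono (left_mem_Icc.2 hr.le) (right_mem_Icc.2 hr.le) hr.le
    simpa [p] using this
  refine ⟨?_, ?_⟩
  · have : 0 ≤ r * deriv w r := by simp only [p] at hp1; linarith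
    exact nonneg_of_mul_nonneg_right this hr
  · have h2 := (h r hr hrR).2
    rw [div_le_iff₀ (pow_pos (mul_pos hr (Real.exp_pos _)) 2)] at h2
    have hb := Real.sq_sqrt (neg_nonneg.2 hκ)
    refine le_of_sq_le_sq ?_ (zero_le_one.trans hp1)
    rw [mul_pow, hb]
    linarith

/-- The derivative of the hypersurface density. -/
def radDeriv (w : ℝ → ℝ) (x : Space n) : Space n →L[ℝ] ℝ :=
  (((n : ℝ) - 1) * areaDensity w x * (deriv w ‖x‖ / ‖x‖)) • innerSL ℝ x

lemma hasFDerivAt_areaDensity {w : ℝ → ℝ} (hw : Differentiable ℝ w) (hw0 : deriv w 0 = 0)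
    (x : Space n) : HasFDerivAt (areaDensity w) (radDeriv w x) x := by
  rcases eq_or_ne x 0 with hx | hx
  · subst hx
    have h0 : HasDerivAt w 0 0 := by simpa [hw0] using (hw 0).hasDerivAt
    have h1 : (fun r : ℝ => w r - w 0) =o[𝓝 0] (fun r : ℝ => r) := by
      simpa using hasDerivAt_iff_isLittleO_nhds_zero.1 h0
    have h2 : HasFDerivAt (fun y : Space n => w ‖y‖) (0 : Space n →L[ℝ] ℝ) 0 := by
      rw [hasFDerivAt_iff_isLittleO_nhds_zero]
      have := h1.comp_tendsto (k := fun y : Space n => ‖y‖) tendsto_norm_zero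
      refine this.norm_right.congr' ?_ ?_ |>.of_norm_right
      · exact Eventually.of_forall fun y => by simp
      · exact Eventually.of_forall fun y => by simp
    refine ((h2.const_mul ((n : ℝ) - 1)).exp).congr_fderiv ?_
    simp [radDeriv]
  · have hr : 0 < ‖x‖ := norm_pos_iff.2 hx
    have hn : HasFDerivAt (fun y : Space n => ‖y‖) (‖x‖⁻¹ • innerSL ℝ x) x := by
      have := ((hasStrictFDerivAt_norm_sq x).hasFDerivAt).sqrt (pow_ne_zero 2 hr.ne')
      refine (this.congr_of_eventuallyEq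
        (Eventually.of_forall fun y => (Real.sqrt_sq (norm_nonneg y)).symm)).congr_fderiv ?_
      ext v
      simp [Real.sqrt_sq (norm_nonneg x)]
      field_simp
    refine ((((hw ‖x‖).hasDerivAt.comp_hasFDerivAt x hn).const_mul ((n : ℝ) - 1)).exp).congr_fderiv ?_
    ext v
    simp [radDeriv, areaDensity]
    field_simp

lemma areaDensity_pos (w : ℝ → ℝ) (x : Space n) : 0 < areaDensity w x := Real.exp_pos _

lemma norm_radDeriv {w : ℝ → ℝ} (hw0 : deriv w 0 = 0) (hn : 1 ≤ n) (x : Space n) :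
    ‖radDeriv w x‖ = ((n : ℝ) - 1) * areaDensity w x * |deriv w ‖x‖| := by
  have h1 : (0 : ℝ) ≤ (n : ℝ) - 1 := by
    have : (1 : ℝ) ≤ n := by exact_mod_cast hn
    linarith
  rw [radDeriv, norm_smul, innerSL_apply_norm, Real.norm_eq_abs, abs_mul, abs_mul,
    abs_of_nonneg h1, abs_of_pos (areaDensity_pos w x), abs_div, abs_norm]
  rcases eq_or_ne x 0 with hx | hx
  · subst hx; simp [hw0]
  · have hr : 0 < ‖x‖ := norm_pos_iff.2 hx
    field_simp

lemma contDiff_areaDensity {w : ℝ → ℝ} (hw : ContDiff ℝ 1 w) (hw0 : deriv w 0 = 0) (hn : 1 ≤ n) :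
    ContDiff ℝ 1 (areaDensity w : Space n → ℝ) := by
  have hwd : Differentiable ℝ w := hw.differentiable (by norm_num)
  have hD := fun x : Space n => hasFDerivAt_areaDensity hwd hw0 x
  rw [contDiff_one_iff_fderiv]
  refine ⟨fun x => (hD x).differentiableAt, ?_⟩
  have e : fderiv ℝ (areaDensity w : Space n → ℝ) = radDeriv w := funext fun x => (hD x).fderiv
  rw [e]
  have hd : Continuous (deriv w) := hw.continuous_deriv le_rfl
  have hA : Continuous (areaDensity w : Space n → ℝ) :=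
    continuous_iff_continuousAt.2 fun x => (hD x).continuousAt
  refine continuous_iff_continuousAt.2 fun x => ?_
  rcases eq_or_ne x 0 with hx | hx
  · subst hx
    have hz : radDeriv (n := n) w 0 = 0 := by simp [radDeriv]
    rw [ContinuousAt, hz]
    refine squeeze_zero_norm (fun y => (norm_radDeriv hw0 hn y).le) ?_
    have : Continuous fun y : Space n => ((n : ℝ) - 1) * areaDensity w y * |deriv w ‖y‖| := by
      fun_prop
    simpa [hw0] using this.tendsto 0
  · have hr : ‖x‖ ≠ 0 := norm_ne_zero_iff.2 hx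
    unfold radDeriv
    exact ((continuousAt_const.mul hA.continuousAt).mul
      ((hd.comp continuous_norm).continuousAt.div continuous_norm.continuousAt hr)).smul
      (innerSL ℝ).continuous.continuousAt

lemma apply_eq_sum (L : Space n →L[ℝ] ℝ) (v : Space n) :
    L v = ∑ i, L (EuclideanSpace.single i (1 : ℝ)) * v i := by
  conv_lhs => rw [← (EuclideanSpace.basisFun (Fin n) ℝ).sum_repr v]
  simp [map_sum, mul_comm]

lemma divg_smul {f : Space n → ℝ} {Y : Space n → Space n} {x : Space n}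
    (hf : DifferentiableAt ℝ f x) (hY : DifferentiableAt ℝ Y x) :
    divg (fun y => f y • Y y) x = fderiv ℝ f x (Y x) + f x * divg Y x := by
  rw [apply_eq_sum (fderiv ℝ f x) (Y x), divg, divg, Finset.mul_sum, ← Finset.sum_add_distrib]
  refine Finset.sum_congr rfl fun i _ => ?_
  have e : (fun y => (f y • Y y) i) = fun y => f y * Y y i := rfl
  have hYi : DifferentiableAt ℝ (fun y => Y y i) x := differentiableAt_euclidean.1 hY i
  simp only [pd, e]
  rw [fderiv_fun_mul hf hYi]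
  simp
  ring

lemma divg_id (x : Space n) : divg (fun y : Space n => y) x = n := by
  have : ∀ i : Fin n, pd i (fun y : Space n => y i) x = 1 := fun i => by
    have h : HasFDerivAt (fun y : Space n => y i) (EuclideanSpace.proj (𝕜 := ℝ) i) x :=
      (EuclideanSpace.proj (𝕜 := ℝ) i).hasFDerivAt
    simp [pd, h.fderiv]
  simp [divg, this]

lemma divg_congr {Y Z : Space n → Space n} {x : Space n} (h : Y =ᶠ[𝓝 x] Z) :
    divg Y x = divg Z x := by
  refine Finset.sum_congr rfl fun i _ => ?_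
  unfold pd
  have h' : (fun y => Y y i) =ᶠ[𝓝 x] fun y => Z y i := h.mono fun y hy => by simp [hy]
  rw [h'.fderiv_eq]

lemma le_gPer_toReal {w : ℝ → ℝ} {Ω : Set (Space n)} (hP : gPer w Ω ≠ ⊤) {Y : Space n → Space n}
    (hY : ContDiff ℝ 1 Y) (hYc : HasCompactSupport Y) (hY1 : ∀ x, ‖Y x‖ ≤ 1) :
    ∫ x in Ω, divg (fun y => areaDensity w y • Y y) x ≤ (gPer w Ω).toReal := by
  refine (ENNReal.ofReal_le_iff_le_toReal hP).1 ?_
  exact le_iSup₂_of_le Y ⟨hY, hYc, hY1⟩ le_rfl

lemma integrableOn_of_bounded {E : Type*} [NormedAddCommGroup E] {g : Space n → E}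
    (hg : Continuous g) {Ω : Set (Space n)} {ρ : ℝ} (hΩ : Ω ⊆ closedBall 0 ρ) : IntegrableOn g Ω :=
  (hg.continuousOn.integrableOn_compact (isCompact_closedBall 0 ρ)).mono_set hΩ

/-- The regularised distance to the origin. -/
def regNorm (δ : ℝ) (y : Space n) : ℝ := Real.sqrt (‖y‖ ^ 2 + δ ^ 2)

lemma regNorm_pos {δ : ℝ} (hδ : 0 < δ) (y : Space n) : 0 < regNorm δ y :=
  Real.sqrt_pos.2 (add_pos_of_nonneg_of_pos (sq_nonneg _) (pow_pos hδ 2))

lemma norm_le_regNorm (δ : ℝ) (y : Space n) : ‖y‖ ≤ regNorm δ y :=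
  Real.le_sqrt_of_sq_le (le_add_of_nonneg_right (sq_nonneg δ))

lemma contDiff_regNorm {δ : ℝ} (hδ : 0 < δ) : ContDiff ℝ 1 (regNorm δ : Space n → ℝ) :=
  ((contDiff_norm_sq ℝ).add contDiff_const).sqrt
    (fun y => (add_pos_of_nonneg_of_pos (sq_nonneg ‖y‖) (pow_pos hδ 2)).ne')

lemma hasFDerivAt_regNorm {δ : ℝ} (hδ : 0 < δ) (x : Space n) :
    HasFDerivAt (regNorm δ) ((regNorm δ x)⁻¹ • innerSL ℝ x) x := by
  have := (((hasStrictFDerivAt_norm_sq x).hasFDerivAt).add_const (δ ^ 2)).sqrt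
    (add_pos_of_nonneg_of_pos (sq_nonneg ‖x‖) (pow_pos hδ 2)).ne'
  refine this.congr_fderiv ?_
  ext v
  simp [regNorm]
  field_simp

/-- The regularised radial integrand. -/
def radInt (w : ℝ → ℝ) (δ : ℝ) (x : Space n) : ℝ :=
  ((n : ℝ) - 1) * areaDensity w x * (1 + ‖x‖ * deriv w ‖x‖) / regNorm δ x

lemma continuous_radInt {w : ℝ → ℝ} (hw : ContDiff ℝ 1 w) (hw0 : deriv w 0 = 0) (hn : 1 ≤ n)
    {δ : ℝ} (hδ : 0 < δ) : Continuous (radInt w δ : Space n → ℝ) := by
  have h1 : Continuous (deriv w) := hw.continuous_deriv le_rfl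
  have h2 : Continuous (areaDensity w : Space n → ℝ) := (contDiff_areaDensity hw hw0 hn).continuous
  exact ((continuous_const.mul h2).mul (by fun_prop)).div (contDiff_regNorm hδ).continuous
    (fun x => (regNorm_pos hδ x).ne')

lemma radInt_le_gPer {w : ℝ → ℝ} (hw : ContDiff ℝ 1 w) (hw0 : deriv w 0 = 0) (hn : 1 ≤ n)
    {Ω : Set (Space n)} (hΩm : MeasurableSet Ω) {ρ : ℝ} (hρ : 0 ≤ ρ) (hΩ : Ω ⊆ closedBall 0 ρ)
    (hP : gPer w Ω ≠ ⊤) {δ : ℝ} (hδ : 0 < δ) :
    ∫ x in Ω, radInt w δ x ≤ (gPer w Ω).toReal := by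
  have hf1 : ContDiff ℝ 1 (areaDensity w : Space n → ℝ) := contDiff_areaDensity hw hw0 hn
  let χ : ContDiffBump (0 : Space n) := ⟨ρ + 1, ρ + 2, by linarith, by linarith⟩
  set c : Space n → ℝ := fun y => χ y / regNorm δ y with hc
  set Y : Space n → Space n := fun y => c y • y with hY
  have hcd : ContDiff ℝ 1 c :=
    χ.contDiff.div (contDiff_regNorm hδ) (fun y => (regNorm_pos hδ y).ne')
  have hYd : ContDiff ℝ 1 Y := hcd.smul contDiff_id
  have hYc : HasCompactSupport Y := χ.hasCompactSupport.mono fun y hy => by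
    simp only [Function.mem_support, hY, hc] at hy ⊢
    intro h0
    simp [h0] at hy
  have hY1 : ∀ y, ‖Y y‖ ≤ 1 := fun y => by
    rw [hY, norm_smul, Real.norm_eq_abs, hc, abs_div, abs_of_pos (regNorm_pos hδ y),
      abs_of_nonneg χ.nonneg, div_mul_eq_mul_div, div_le_one (regNorm_pos hδ y)]
    calc χ y * ‖y‖ ≤ 1 * ‖y‖ := mul_le_mul_of_nonneg_right χ.le_one (norm_nonneg y)
      _ ≤ regNorm δ y := by simpa using norm_le_regNorm δ y
  refine le_trans ?_ (le_gPer_toReal hP hYd hYc hY1)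
  have hZc : Continuous (divg fun y => areaDensity w y • Y y) := by
    refine continuous_finsetSum _ fun i _ => ?_
    have : ContDiff ℝ 1 fun y => (areaDensity w y • Y y) i :=
      contDiff_euclidean.1 (hf1.smul hYd) i
    exact (this.continuous_fderiv one_ne_zero).clm_apply continuous_const
  refine setIntegral_mono_on (integrableOn_of_bounded (continuous_radInt hw hw0 hn hδ) hΩ)
    (integrableOn_of_bounded hZc hΩ) hΩm fun x hx => ?_
  have hxρ : ‖x‖ ≤ ρ := mem_closedBall_zero_iff.1 (hΩ hx)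
  have hχ : (χ : Space n → ℝ) =ᶠ[𝓝 x] 1 :=
    χ.eventuallyEq_one_of_mem_ball (mem_ball_zero_iff.2 (show ‖x‖ < ρ + 1 by linarith))
  have hce : c =ᶠ[𝓝 x] fun y => (regNorm δ y)⁻¹ := by
    filter_upwards [hχ] with y hy
    simp [hc, hy]
  have hcf : HasFDerivAt c
      ((-((regNorm δ x) ^ 2)⁻¹) • (regNorm δ x)⁻¹ • innerSL ℝ x) x :=
    ((hasDerivAt_inv (regNorm_pos hδ x).ne').comp_hasFDerivAt x
      (hasFDerivAt_regNorm hδ x)).congr_of_eventuallyEq hce
  have hdY : divg Y x = fderiv ℝ c x x + c x * n := by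
    rw [hY, divg_smul hcf.differentiableAt (differentiableAt_fun_id (x := x)), divg_id]
  rw [divg_smul (hf1.differentiable one_ne_zero x) (hYd.differentiable one_ne_zero x),
    (hasFDerivAt_areaDensity (hw.differentiable one_ne_zero) hw0 x).fderiv, hdY, hcf.fderiv]
  have hc1 : c x = (regNorm δ x)⁻¹ := hce.eq_of_nhds
  simp only [radInt, hY, hc1, radDeriv, FunLike.coe_smul, Pi.smul_apply, smul_eq_mul,
    map_smul, innerSL_apply_apply, real_inner_self_eq_norm_sq]
  have hs := regNorm_pos hδ x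
  have hrs : ‖x‖ ^ 2 ≤ regNorm δ x ^ 2 := pow_le_pow_left₀ (norm_nonneg x) (norm_le_regNorm δ x) 2
  have hf := areaDensity_pos w x
  have e : deriv w ‖x‖ / ‖x‖ * ‖x‖ ^ 2 = ‖x‖ * deriv w ‖x‖ := by
    rcases eq_or_ne ‖x‖ 0 with h0 | h0
    · simp [h0]
    · field_simp
  have h3 : 0 ≤ areaDensity w x * (1 - ‖x‖ ^ 2 / regNorm δ x ^ 2) / regNorm δ x :=
    div_nonneg (mul_nonneg hf.le
      (by linarith [div_le_one_of_le₀ hrs (sq_nonneg (regNorm δ x))])) hs.le
  linear_combination h3 - ((n : ℝ) - 1) * areaDensity w x / regNorm δ x * e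

lemma le_gPer_of_dominated {w : ℝ → ℝ} (hw : ContDiff ℝ 1 w) (hw0 : deriv w 0 = 0) (hn : 1 ≤ n)
    {Ω : Set (Space n)} (hΩm : MeasurableSet Ω) {ρ : ℝ} (hρ : 0 ≤ ρ) (hΩ : Ω ⊆ closedBall 0 ρ)
    (hP : gPer w Ω ≠ ⊤) {φ : Space n → ℝ} (hφ : Continuous φ) (hφ0 : ∀ x ∈ Ω, 0 ≤ φ x)
    (hφb : ∀ x ∈ Ω, x ≠ 0 →
      φ x * ‖x‖ ≤ ((n : ℝ) - 1) * areaDensity w x * (1 + ‖x‖ * deriv w ‖x‖)) :
    ∫ x in Ω, φ x ≤ (gPer w Ω).toReal := by
  let δ : ℕ → ℝ := fun k => 1 / ((k : ℝ) + 1)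
  have hδ : ∀ k, 0 < δ k := fun k => by positivity
  have hn1 : (0 : ℝ) ≤ (n : ℝ) - 1 := by
    have : (1 : ℝ) ≤ n := by exact_mod_cast hn
    linarith
  have hint : ∀ k, IntegrableOn (fun x => φ x * (‖x‖ / regNorm (δ k) x)) Ω := fun k =>
    integrableOn_of_bounded (hφ.mul (continuous_norm.div (contDiff_regNorm (hδ k)).continuous
      fun x => (regNorm_pos (hδ k) x).ne')) hΩ
  have hk : ∀ k, ∫ x in Ω, φ x * (‖x‖ / regNorm (δ k) x) ≤ (gPer w Ω).toReal := fun k => by
    refine (setIntegral_mono_on (hint k)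
      (integrableOn_of_bounded (continuous_radInt hw hw0 hn (hδ k)) hΩ) hΩm fun x hx => ?_).trans
      (radInt_le_gPer hw hw0 hn hΩm hρ hΩ hP (hδ k))
    rw [← mul_div_assoc]
    rcases eq_or_ne x 0 with hx0 | hx0
    · subst hx0
      simp only [radInt, norm_zero, mul_zero, zero_mul, zero_div, add_zero, mul_one]
      exact div_nonneg (mul_nonneg hn1 (areaDensity_pos w 0).le) (regNorm_pos (hδ k) 0).le
    · exact div_le_div_of_nonneg_right (hφb x hx hx0) (regNorm_pos (hδ k) x).le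
  refine le_of_tendsto' (tendsto_integral_of_dominated_convergence φ
    (fun k => (hint k).aestronglyMeasurable) (integrableOn_of_bounded hφ hΩ) (fun k => ?_) ?_) hk
  · refine (ae_restrict_iff' hΩm).2 (ae_of_all _ fun x hx => ?_)
    have h1 : ‖x‖ / regNorm (δ k) x ≤ 1 :=
      (div_le_one (regNorm_pos (hδ k) x)).2 (norm_le_regNorm _ x)
    have h2 : 0 ≤ ‖x‖ / regNorm (δ k) x :=
      div_nonneg (norm_nonneg x) (regNorm_pos (hδ k) x).le
    rw [Real.norm_eq_abs, abs_of_nonneg (mul_nonneg (hφ0 x hx) h2)]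
    exact mul_le_of_le_one_right (hφ0 x hx) h1
  · have hne : ∀ᵐ x : Space n, x ≠ 0 := by
      have : Nonempty (Fin n) := ⟨⟨0, by omega⟩⟩
      simp [ae_iff]
    filter_upwards [ae_restrict_of_ae hne] with x hx
    have hr : 0 < ‖x‖ := norm_pos_iff.2 hx
    have h1 : Tendsto (fun k : ℕ => ‖x‖ ^ 2 + δ k ^ 2) atTop (𝓝 (‖x‖ ^ 2)) := by
      simpa [δ] using (tendsto_one_div_add_atTop_nhds_zero_nat.pow 2).const_add (‖x‖ ^ 2)
    have h2 : Tendsto (fun k : ℕ => regNorm (δ k) x) atTop (𝓝 ‖x‖) := by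
      have := (Real.continuous_sqrt.tendsto _).comp h1
      rwa [Real.sqrt_sq hr.le] at this
    simpa [hr.ne'] using ((tendsto_const_nhds (x := ‖x‖)).div h2 hr.ne').const_mul (φ x)

/-- The radial test fields. -/
theorem radial_bounds {w : ℝ → ℝ} (hw : ContDiff ℝ 2 w) (hw0 : deriv w 0 = 0) {κ R ρ : ℝ}
    (hκ : κ ≤ 0) (h : SecLE w κ R) (hn : 2 ≤ n) {Ω : Set (Space n)} (hΩm : MeasurableSet Ω)
    (hρ : 0 ≤ ρ) (hρR : ρ < R) (hΩ : Ω ⊆ closedBall 0 ρ) (hP : gPer w Ω ≠ ⊤) :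
    ∫ x in Ω, ‖fderiv ℝ (areaDensity w) x‖ ≤ (gPer w Ω).toReal ∧
      ((n : ℝ) - 1) * Real.sqrt (-κ) * gVol w Ω ≤ (gPer w Ω).toReal := by
  have hw1 : ContDiff ℝ 1 w := hw.of_le (by norm_num)
  have hf1 : ContDiff ℝ 1 (areaDensity w : Space n → ℝ) := contDiff_areaDensity hw1 hw0 (by omega)
  have hwc : Continuous w := hw.continuous
  have hn1 : (0 : ℝ) ≤ (n : ℝ) - 1 := by
    have : (2 : ℝ) ≤ n := by exact_mod_cast hn
    linarith
  set b := Real.sqrt (-κ) with hb
  have hcur : ∀ x ∈ Ω, x ≠ 0 → 0 ≤ deriv w ‖x‖ ∧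
      b * (‖x‖ * Real.exp (w ‖x‖)) ≤ 1 + ‖x‖ * deriv w ‖x‖ := fun x hx hx0 =>
    curvature_consequences hw hκ h (norm_pos_iff.2 hx0)
      ((mem_closedBall_zero_iff.1 (hΩ hx)).trans_lt hρR)
  have master := fun (φ : Space n → ℝ) h1 h2 h3 =>
    le_gPer_of_dominated (φ := φ) hw1 hw0 (by omega : 1 ≤ n) hΩm hρ hΩ hP h1 h2 h3
  constructor
  · refine master _ ((hf1.continuous_fderiv one_ne_zero).norm) (fun x _ => norm_nonneg _)
      fun x hx hx0 => ?_
    rw [(hasFDerivAt_areaDensity (hw1.differentiable one_ne_zero) hw0 x).fderiv,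
      norm_radDeriv hw0 (by omega), abs_of_nonneg (hcur x hx hx0).1]
    have hfp := areaDensity_pos w x
    linear_combination mul_nonneg hn1 hfp.le
  · have e : ∀ x : Space n, Real.exp ((n : ℝ) * w ‖x‖) = areaDensity w x * Real.exp (w ‖x‖) :=
      fun x => by rw [areaDensity, ← Real.exp_add]; congr 1; ring
    have := master (fun x => ((n : ℝ) - 1) * b * Real.exp ((n : ℝ) * w ‖x‖)) (by fun_prop)
      (fun x _ => mul_nonneg (mul_nonneg hn1 (Real.sqrt_nonneg _)) (Real.exp_pos _).le)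
      fun x hx hx0 => by
        have h1 := mul_le_mul_of_nonneg_left (hcur x hx hx0).2
          (mul_nonneg hn1 (areaDensity_pos w x).le)
        rw [e]
        linear_combination h1
    rwa [integral_const_mul] at this

end

end Vale.Agent.P219
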