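import Mathlib
import Vale.Agent.P219.Radial

/-! The gradient inequality applied to mollified weighted indicators. -/

open MeasureTheory Set Filter Metric ContinuousLinearMap
open scoped ENNReal Topology Convolution

namespace Vale.Agent.P219

noncomputable section

variable {n : ℕ}

lemma continuous_pd {u : Space n → ℝ} (hu : ContDiff ℝ 1 u) (i : Fin n) : Continuous (pd i u) :=
  (hu.continuous_fderiv one_ne_zero).clm_apply continuous_const

lemma continuous_divg {Y : Space n → Space n} (hY : ContDiff ℝ 1 Y) : Continuous (divg Y) :=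
  continuous_finsetSum _ fun i _ => continuous_pd (contDiff_euclidean.1 hY i) i

lemma divg_eq_zero_of_notMem {Y : Space n → Space n} {x : Space n} (hx : x ∉ tsupport Y) :
    divg Y x = 0 := by
  rw [divg_congr (Z := fun _ => 0) (notMem_tsupport_iff_eventuallyEq.1 hx)]
  simp [divg, pd]

lemma hasCompactSupport_divg {Y : Space n → Space n} (hY : HasCompactSupport Y) :
    HasCompactSupport (divg Y) :=
  HasCompactSupport.intro hY fun _ hx => divg_eq_zero_of_notMem hx

lemma divg_translate (Y : Space n → Space n) (z x : Space n) :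
    divg (fun y => Y (y + z)) x = divg Y (x + z) := by
  refine Finset.sum_congr rfl fun i _ => ?_
  unfold pd
  rw [fderiv_comp_add_right (f := fun y => Y y i) z]

/-- The weighted divergence against a field of norm at most one. -/
lemma weighted_divg_le {w : ℝ → ℝ} (hw : ContDiff ℝ 1 w) (hw0 : deriv w 0 = 0) (hn : 1 ≤ n)
    {Ω : Set (Space n)} (hΩm : MeasurableSet Ω) {ρ : ℝ} (hΩ : Ω ⊆ closedBall 0 ρ)
    (hP : gPer w Ω ≠ ⊤) {Y : Space n → Space n} (hY : ContDiff ℝ 1 Y) (hYc : HasCompactSupport Y)
    (hY1 : ∀ x, ‖Y x‖ ≤ 1) :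
    ∫ x in Ω, areaDensity w x * divg Y x ≤
      (gPer w Ω).toReal + ∫ x in Ω, ‖fderiv ℝ (areaDensity w) x‖ := by
  have hf : ContDiff ℝ 1 (areaDensity w : Space n → ℝ) := contDiff_areaDensity hw hw0 hn
  have h1 : Continuous fun x => fderiv ℝ (areaDensity w) x (Y x) :=
    (hf.continuous_fderiv one_ne_zero).clm_apply hY.continuous
  have i1 := integrableOn_of_bounded h1 hΩ
  have i2 := integrableOn_of_bounded (g := fun x => areaDensity w x * divg Y x)
    (hf.continuous.mul (continuous_divg hY)) hΩ
  have e : ∫ x in Ω, divg (fun y => areaDensity w y • Y y) x =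
      (∫ x in Ω, fderiv ℝ (areaDensity w) x (Y x)) + ∫ x in Ω, areaDensity w x * divg Y x := by
    rw [← integral_add i1 i2]
    exact setIntegral_congr_fun hΩm fun x _ =>
      divg_smul (hf.differentiable one_ne_zero x) (hY.differentiable one_ne_zero x)
  have h2 : -∫ x in Ω, fderiv ℝ (areaDensity w) x (Y x) ≤
      ∫ x in Ω, ‖fderiv ℝ (areaDensity w) x‖ := by
    rw [← integral_neg]
    refine integral_mono i1.neg
      (integrableOn_of_bounded (hf.continuous_fderiv one_ne_zero).norm hΩ) fun x => ?_
    have := (fderiv ℝ (areaDensity w) x).le_opNorm (Y x)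
    rw [Real.norm_eq_abs] at this
    calc -(fderiv ℝ (areaDensity w) x (Y x)) ≤ |fderiv ℝ (areaDensity w) x (Y x)| := neg_le_abs _
      _ ≤ ‖fderiv ℝ (areaDensity w) x‖ * ‖Y x‖ := this
      _ ≤ ‖fderiv ℝ (areaDensity w) x‖ := mul_le_of_le_one_right (norm_nonneg _) (hY1 x)
  linarith [le_gPer_toReal hP hY hYc hY1]

/-- A mollified function inherits the bound on its pairings with divergences. -/
lemma convolution_pairing_le {g η : Space n → ℝ} (hgm : Measurable g) {C M : ℝ}
    (hgC : ∀ x, |g x| ≤ C) (hηc : Continuous η) (hηs : HasCompactSupport η) (hη0 : ∀ x, 0 ≤ η x)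
    (hη1 : ∫ x, η x = 1) {Y : Space n → Space n} (hY : ContDiff ℝ 1 Y) (hYc : HasCompactSupport Y)
    (hM : ∀ z : Space n, ∫ y, g y * divg Y (y + z) ≤ M) :
    ∫ x, (η ⋆[lsmul ℝ ℝ, volume] g) x * divg Y x ≤ M := by
  set D := divg Y
  have hDc : Continuous D := continuous_divg hY
  have hDi : Integrable D := hDc.integrable_of_hasCompactSupport (hasCompactSupport_divg hYc)
  have hηi : Integrable η := hηc.integrable_of_hasCompactSupport hηs
  have hF : Integrable (Function.uncurry fun x t : Space n => η t * g (x - t) * D x)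
      (volume.prod volume) := by
    refine Integrable.mono' ((hDi.norm.mul_prod hηi.norm).const_mul C) ?_ (ae_of_all _ fun p => ?_)
    · exact (((hηc.measurable.comp measurable_snd).mul
        (hgm.comp (measurable_fst.sub measurable_snd))).mul
        (hDc.measurable.comp measurable_fst)).aestronglyMeasurable
    · simp only [Function.uncurry, norm_mul, Real.norm_eq_abs]
      calc |η p.2| * |g (p.1 - p.2)| * |D p.1| ≤ |η p.2| * C * |D p.1| := by
            gcongr; exact hgC _
        _ = C * (|D p.1| * |η p.2|) := by ring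
  have e : ∀ x, (η ⋆[lsmul ℝ ℝ, volume] g) x * D x = ∫ t, η t * g (x - t) * D x := fun x => by
    rw [convolution_def, ← integral_mul_const]
    simp
  simp_rw [e]
  rw [integral_integral_swap hF]
  calc ∫ t, ∫ x, η t * g (x - t) * D x ≤ ∫ t, η t * M := by
        refine integral_mono hF.swap.integral_prod_left (hηi.mul_const M) fun t => ?_
        have e2 : ∫ x, η t * g (x - t) * D x = η t * ∫ y, g y * D (y + t) := by
          rw [← integral_const_mul,
            ← integral_add_right_eq_self (fun x => η t * g (x - t) * D x) t]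
          simp [mul_assoc]
        simp only
        rw [e2]
        exact mul_le_mul_of_nonneg_left (hM t) (hη0 t)
    _ = M := by rw [integral_mul_const, hη1, one_mul]

/-- The gradient of a smooth function, coordinatewise. -/
def grad (u : Space n → ℝ) (x : Space n) : Space n := WithLp.toLp 2 (fun i => pd i u x)

lemma fderiv_eq_innerSL (u : Space n → ℝ) (x : Space n) :
    fderiv ℝ u x = innerSL ℝ (grad u x) := by
  ext v
  rw [apply_eq_sum (fderiv ℝ u x) v, innerSL_apply_apply, PiLp.inner_apply]
  simp [grad, pd, mul_comm]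

lemma norm_fderiv_eq (u : Space n → ℝ) (x : Space n) : ‖fderiv ℝ u x‖ = ‖grad u x‖ := by
  rw [fderiv_eq_innerSL, innerSL_apply_norm]

/-- Total variation is controlled by pairings with divergences. -/
lemma integral_norm_fderiv_le {u : Space n → ℝ} (hu : ContDiff ℝ 2 u) (hc : HasCompactSupport u)
    {M : ℝ} (hM : ∀ Y : Space n → Space n, ContDiff ℝ 1 Y → HasCompactSupport Y →
      (∀ x, ‖Y x‖ ≤ 1) → ∫ x, u x * divg Y x ≤ M) :
    ∫ x, ‖fderiv ℝ u x‖ ≤ M := by
  have hu1 : ContDiff ℝ 1 u := hu.of_le (by norm_num)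
  have hG : ContDiff ℝ 1 (grad u) := contDiff_euclidean.2 fun i =>
    ((hu.fderiv_right (m := 1) (by norm_num)).clm_apply contDiff_const)
  have hGc : HasCompactSupport (grad u) := (hc.fderiv ℝ).mono fun x hx h0 => by
    apply hx
    rw [← norm_eq_zero, ← norm_fderiv_eq, h0, norm_zero]
  have hGi : Integrable fun x => ‖grad u x‖ :=
    hG.continuous.norm.integrable_of_hasCompactSupport hGc.norm
  simp_rw [norm_fderiv_eq]
  let δ : ℕ → ℝ := fun k => 1 / ((k : ℝ) + 1)
  have hδ : ∀ k, 0 < δ k := fun k => by positivity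
  have hk : ∀ k, ∫ x, ‖grad u x‖ * (‖grad u x‖ / regNorm (δ k) (grad u x)) ≤ M := by
    intro k
    set s : Space n → ℝ := fun x => regNorm (δ k) (grad u x)
    have hs : ∀ x, 0 < s x := fun x => regNorm_pos (hδ k) _
    set Y : Space n → Space n := fun x => (-(s x)⁻¹) • grad u x with hY
    have hYd : ContDiff ℝ 1 Y :=
      (((contDiff_regNorm (hδ k)).comp hG).inv fun x => (hs x).ne').neg.smul hG
    have hYc : HasCompactSupport Y := hGc.mono fun x hx h0 => hx (by simp [hY, h0])
    have hY1 : ∀ x, ‖Y x‖ ≤ 1 := fun x => by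
      rw [hY, norm_smul, norm_neg, norm_inv, Real.norm_of_nonneg (hs x).le, inv_mul_eq_div]
      exact (div_le_one (hs x)).2 (norm_le_regNorm _ _)
    refine le_of_eq_of_le ?_ (hM Y hYd hYc hY1)
    have hYi : ∀ i, ContDiff ℝ 1 fun x => Y x i := fun i => contDiff_euclidean.1 hYd i
    have hYic : ∀ i, HasCompactSupport fun x => Y x i := fun i =>
      hYc.comp_left (g := fun v : Space n => v i) rfl
    have a1 : ∀ i, Integrable fun x => pd i u x * Y x i := fun i =>
      ((continuous_pd hu1 i).mul (hYi i).continuous).integrable_of_hasCompactSupport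
        (hYic i).mul_left
    have a2 : ∀ i, Integrable fun x => u x * pd i (fun y => Y y i) x := fun i =>
      (hu1.continuous.mul (continuous_pd (hYi i) i)).integrable_of_hasCompactSupport hc.mul_right
    have ibp : ∀ i, ∫ x, u x * pd i (fun y => Y y i) x = -∫ x, pd i u x * Y x i := fun i =>
      integral_mul_fderiv_eq_neg_fderiv_mul_of_integrable (a1 i) (a2 i)
        ((hu1.continuous.mul (hYi i).continuous).integrable_of_hasCompactSupport hc.mul_right)
        (fun x _ => hu1.differentiable one_ne_zero x) (fun x _ => (hYi i).differentiable one_ne_zero x)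
    simp only [divg, Finset.mul_sum]
    rw [integral_finsetSum _ fun i _ => a2 i]
    simp only [ibp, Finset.sum_neg_distrib]
    rw [← integral_finsetSum _ fun i _ => a1 i, ← integral_neg]
    refine integral_congr_ae (ae_of_all _ fun x => ?_)
    have e : ∑ i, pd i u x * Y x i = fderiv ℝ u x (Y x) := (apply_eq_sum _ _).symm
    simp only [e]
    rw [fderiv_eq_innerSL, innerSL_apply_apply, hY, real_inner_smul_right,
      real_inner_self_eq_norm_sq]
    ring
  refine le_of_tendsto' (tendsto_integral_of_dominated_convergence (fun x => ‖grad u x‖)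
    (fun k => ?_) hGi (fun k => ae_of_all _ fun x => ?_) (ae_of_all _ fun x => ?_)) hk
  · exact (hG.continuous.norm.mul (hG.continuous.norm.div
      ((contDiff_regNorm (hδ k)).continuous.comp hG.continuous)
      fun x => (regNorm_pos (hδ k) _).ne')).aestronglyMeasurable
  · have h2 : 0 ≤ ‖grad u x‖ / regNorm (δ k) (grad u x) :=
      div_nonneg (norm_nonneg _) (regNorm_pos (hδ k) _).le
    rw [Real.norm_eq_abs, abs_of_nonneg (mul_nonneg (norm_nonneg _) h2)]
    exact mul_le_of_le_one_right (norm_nonneg _)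
      ((div_le_one (regNorm_pos (hδ k) _)).2 (norm_le_regNorm _ _))
  · rcases eq_or_ne (grad u x) 0 with h0 | h0
    · simp [h0]
    · have hr : 0 < ‖grad u x‖ := norm_pos_iff.2 h0
      have h2 : Tendsto (fun k : ℕ => regNorm (δ k) (grad u x)) atTop (𝓝 ‖grad u x‖) := by
        have h1 : Tendsto (fun k : ℕ => ‖grad u x‖ ^ 2 + δ k ^ 2) atTop (𝓝 (‖grad u x‖ ^ 2)) := by
          simpa [δ] using
            (tendsto_one_div_add_atTop_nhds_zero_nat.pow 2).const_add (‖grad u x‖ ^ 2)
        have := (Real.continuous_sqrt.tendsto _).comp h1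
        rwa [Real.sqrt_sq hr.le] at this
      simpa [hr.ne'] using
        ((tendsto_const_nhds (x := ‖grad u x‖)).div h2 hr.ne').const_mul ‖grad u x‖

/-- Perimeter plus the variation of the density bounds the Euclidean profile of the volume. -/
theorem iso_le_gPer_add {w : ℝ → ℝ} (hw : ContDiff ℝ 1 w) (hw0 : deriv w 0 = 0) (hn : 2 ≤ n)
    {Ω : Set (Space n)} (hΩm : MeasurableSet Ω) {ρ : ℝ} (hΩ : Ω ⊆ closedBall 0 ρ)
    (hP : gPer w Ω ≠ ⊤) :
    n * ballVol n ^ ((n : ℝ)⁻¹) * gVol w Ω ^ (1 - (n : ℝ)⁻¹) ≤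
      (gPer w Ω).toReal + ∫ x in Ω, ‖fderiv ℝ (areaDensity w) x‖ := by
  set f : Space n → ℝ := areaDensity w
  set M := (gPer w Ω).toReal + ∫ x in Ω, ‖fderiv ℝ f x‖
  have hfc : Continuous f := (contDiff_areaDensity hw hw0 (by omega)).continuous
  set g : Space n → ℝ := Ω.indicator f
  have hgm : Measurable g := hfc.measurable.indicator hΩm
  obtain ⟨C, hC⟩ := (isCompact_closedBall (0 : Space n) ρ).exists_bound_of_continuousOn
    hfc.continuousOn
  have hg0 : ∀ x, 0 ≤ g x := fun x => indicator_nonneg (fun y _ => (areaDensity_pos w y).le) x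
  have hgC : ∀ x, |g x| ≤ max C 0 := fun x => by
    by_cases hx : x ∈ Ω
    · simpa [g, hx] using le_max_of_le_left (b := C) (c := 0) (hC x (hΩ hx))
    · simp [g, hx]
  have hgs : HasCompactSupport g := HasCompactSupport.intro (isCompact_closedBall 0 ρ)
    fun x hx => indicator_of_notMem (fun h => hx (hΩ h)) _
  have hgi : LocallyIntegrable g :=
    ((integrableOn_of_bounded hfc hΩ).integrable_indicator hΩm).locallyIntegrable
  let φ : ℕ → ContDiffBump (0 : Space n) := fun k =>
    ⟨1 / ((k : ℝ) + 1), 2 / ((k : ℝ) + 1), by positivity, by gcongr; norm_num⟩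
  set U : ℕ → Space n → ℝ := fun k => (φ k).normed volume ⋆[lsmul ℝ ℝ, volume] g
  set p : ℝ := (n : ℝ) / (n - 1)
  set c : ℝ := n * ballVol n ^ ((n : ℝ)⁻¹)
  have hc0 : 0 < c := mul_pos (by exact_mod_cast (show 0 < n by omega))
    (Real.rpow_pos_of_pos (ballVol_pos (by omega)) _)
  have hnR : (2 : ℝ) ≤ n := by exact_mod_cast hn
  set α : ℝ := 1 - (n : ℝ)⁻¹
  have hα : 0 < α := by
    show 0 < 1 - (n : ℝ)⁻¹
    linarith [inv_lt_one_of_one_lt₀ (show (1 : ℝ) < n by linarith)]
  have hUd : ∀ k, ContDiff ℝ 2 (U k) := fun k =>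
    (φ k).hasCompactSupport_normed.contDiff_convolution_left _ (φ k).contDiff_normed hgi
  have hU : ∀ k, ∫⁻ x, ENNReal.ofReal (U k x) ^ p ≤
      (ENNReal.ofReal M / ENNReal.ofReal c) ^ α⁻¹ := by
    intro k
    have hUs : HasCompactSupport (U k) :=
      (φ k).hasCompactSupport_normed.convolution (lsmul ℝ ℝ) hgs
    have hU0 : ∀ x, 0 ≤ U k x := fun x => integral_nonneg fun t => by
      simpa using mul_nonneg ((φ k).nonneg_normed t) (hg0 (x - t))
    have hb : ∫ x, ‖fderiv ℝ (U k) x‖ ≤ M := by
      refine integral_norm_fderiv_le (hUd k) hUs fun Y hY hYc hY1 => ?_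
      refine convolution_pairing_le hgm hgC (φ k).continuous_normed
        (φ k).hasCompactSupport_normed (φ k).nonneg_normed (φ k).integral_normed hY hYc fun z => ?_
      have h1 := weighted_divg_le hw hw0 (by omega : 1 ≤ n) hΩm hΩ hP
        (Y := fun y => Y (y + z)) (hY.comp (contDiff_id.add contDiff_const))
        (hYc.comp_homeomorph (Homeomorph.addRight z)) (fun x => hY1 (x + z))
      refine le_of_eq_of_le ?_ h1
      rw [← integral_indicator hΩm]
      refine integral_congr_ae (ae_of_all _ fun x => ?_)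
      by_cases hx : x ∈ Ω <;> simp [g, hx, f, divg_translate]
    have h2 := (sobolev hn ((hUd k).of_le (by norm_num)) hUs hU0).trans
      (ENNReal.ofReal_le_ofReal hb)
    rw [ENNReal.le_rpow_inv_iff hα]
    rw [ENNReal.le_div_iff_mul_le (Or.inl (by simpa using hc0)) (Or.inl ENNReal.ofReal_ne_top),
      mul_comm]
    exact h2
  have hlim : ∀ᵐ x : Space n, Tendsto (fun k => U k x) atTop (𝓝 (g x)) := by
    refine ContDiffBump.ae_convolution_tendsto_right_of_locallyIntegrable (K := 2) ?_ ?_ hgi
    · simpa [φ, div_eq_mul_inv] using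
        (tendsto_one_div_add_atTop_nhds_zero_nat (𝕜 := ℝ)).const_mul 2
    · exact Eventually.of_forall fun k => le_of_eq (by show (2 : ℝ) / _ = 2 * (1 / _); ring)
  have hV : ∫⁻ x, ENNReal.ofReal (g x) ^ p ≤ (ENNReal.ofReal M / ENNReal.ofReal c) ^ α⁻¹ := by
    calc ∫⁻ x, ENNReal.ofReal (g x) ^ p
        = ∫⁻ x, liminf (fun k => ENNReal.ofReal (U k x) ^ p) atTop := by
          refine lintegral_congr_ae ?_
          filter_upwards [hlim] with x hx
          exact (((ENNReal.continuous_rpow_const.comp ENNReal.continuous_ofReal).tendsto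
            (g x)).comp hx).liminf_eq.symm
      _ ≤ liminf (fun k => ∫⁻ x, ENNReal.ofReal (U k x) ^ p) atTop :=
          lintegral_liminf_le' fun k =>
            ((ENNReal.continuous_rpow_const.comp ENNReal.continuous_ofReal).comp
              (hUd k).continuous).aemeasurable
      _ ≤ _ := liminf_le_of_le (by isBoundedDefault) fun b hb =>
          (hb.exists.choose_spec).trans (hU _)
  have hp : 0 < p := div_pos (by linarith) (by linarith)
  have hgV : ∫⁻ x, ENNReal.ofReal (g x) ^ p = ENNReal.ofReal (gVol w Ω) := by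
    have e : ∀ x, ENNReal.ofReal (g x) ^ p =
        ENNReal.ofReal (Ω.indicator (fun y => Real.exp ((n : ℝ) * w ‖y‖)) x) := fun x => by
      by_cases hx : x ∈ Ω
      · simp only [g, indicator_of_mem hx, f, areaDensity]
        rw [ENNReal.ofReal_rpow_of_pos (Real.exp_pos _), ← Real.exp_mul]
        have : (n : ℝ) - 1 ≠ 0 := by linarith
        congr 2
        simp only [p]
        field_simp
      · simp [g, hx, ENNReal.zero_rpow_of_pos hp]
    simp_rw [e]
    rw [gVol, ← integral_indicator hΩm, ofReal_integral_eq_lintegral_ofReal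
      ((integrableOn_of_bounded (by have := hw.continuous; fun_prop) hΩ).integrable_indicator hΩm)
      (ae_of_all _ fun x => indicator_nonneg (fun y _ => (Real.exp_pos _).le) x)]
  rw [hgV, ENNReal.le_rpow_inv_iff hα,
    ENNReal.le_div_iff_mul_le (Or.inl (by simpa using hc0)) (Or.inl ENNReal.ofReal_ne_top),
    ENNReal.ofReal_rpow_of_nonneg
      (show 0 ≤ gVol w Ω from setIntegral_nonneg hΩm fun x _ => (Real.exp_pos _).le) hα.le,
    ← ENNReal.ofReal_mul' hc0.le] at hV
  have hM0 : 0 ≤ M := add_nonneg ENNReal.toReal_nonneg (integral_nonneg fun x => norm_nonneg _)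
  rw [mul_comm]
  exact (ENNReal.ofReal_le_ofReal_iff hM0).1 hV

end

end Vale.Agent.P219
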