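import Mathlib
import Vale.Agent.P219.Defs

/-! The model profile is below the Euclidean one plus the linear term. -/

open Set MeasureTheory Filter
open scoped Topology

namespace Vale.Agent.P219

noncomputable section

lemma snK_props {κ : ℝ} (hκ : κ ≤ 0) :
    Continuous (snK κ) ∧ snK κ 0 = 0 ∧
    (∀ r, HasDerivAt (snK κ) (if κ = 0 then 1 else Real.cosh (Real.sqrt (-κ) * r)) r) ∧
    (∀ r, 0 < r → 0 < snK κ r) ∧
    (∀ r, 0 ≤ r → 1 ≤ (if κ = 0 then 1 else Real.cosh (Real.sqrt (-κ) * r)) ∧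
      (if κ = 0 then 1 else Real.cosh (Real.sqrt (-κ) * r)) ≤ 1 + Real.sqrt (-κ) * snK κ r) := by
  rcases eq_or_lt_of_le hκ with h | h
  · subst h
    have e : snK 0 = fun r => r := by funext r; simp [snK]
    rw [e]
    refine ⟨continuous_id, rfl, fun r => ?_, fun r hr => hr, fun r hr => ?_⟩
    · simpa using hasDerivAt_id' r
    · simp
  · set b := Real.sqrt (-κ) with hb
    have hb0 : 0 < b := Real.sqrt_pos.2 (by linarith)
    have e : snK κ = fun r => Real.sinh (b * r) / b := by funext r; simp [snK, h.ne, hb]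
    simp only [h.ne, if_false]
    rw [e]
    refine ⟨by fun_prop, by simp, fun r => ?_, fun r hr => ?_, fun r hr => ⟨Real.one_le_cosh _, ?_⟩⟩
    · refine (((hasDerivAt_id' r).const_mul b).sinh.div_const b).congr_deriv ?_
      field_simp
    · exact div_pos (Real.sinh_pos_iff.2 (by positivity)) hb0
    · rw [mul_div_cancel₀ _ hb0.ne']
      have h1 := Real.cosh_sub_sinh (b * r)
      have : Real.exp (-(b * r)) ≤ 1 := Real.exp_le_one_iff.2 (by nlinarith)
      linarith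

/-- Area against volume in a space form. -/
theorem modelArea_le {n : ℕ} (hn : 2 ≤ n) {κ : ℝ} (hκ : κ ≤ 0) {r : ℝ} (hr : 0 ≤ r) :
    modelArea n κ r ≤ n * ballVol n ^ ((n : ℝ)⁻¹) * modelVol n κ r ^ (1 - (n : ℝ)⁻¹)
      + (n - 1) * Real.sqrt (-κ) * modelVol n κ r := by
  obtain ⟨hc, h0, hd, hpos, hcs⟩ := snK_props hκ
  set b := Real.sqrt (-κ)
  set sn := snK κ
  set D : ℝ → ℝ := fun r => if κ = 0 then 1 else Real.cosh (b * r)
  have hnR : (2 : ℝ) ≤ n := by exact_mod_cast hn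
  have hn0 : (n : ℝ) ≠ 0 := by linarith
  have hn1 : n - 1 ≠ 0 := by omega
  let Y : ℝ → ℝ := fun r => ∫ t in (0 : ℝ)..r, sn t ^ (n - 1)
  have hY : ∀ r, HasDerivAt Y (sn r ^ (n - 1)) r := fun r =>
    ((hc.pow _).integral_hasStrictDerivAt 0 r).hasDerivAt
  have hYc : Continuous Y := continuous_iff_continuousAt.2 fun r => (hY r).continuousAt
  have hY0 : Y 0 = 0 := by simp [Y]
  have hYpos : ∀ r, 0 < r → 0 < Y r := fun r hr =>
    intervalIntegral.intervalIntegral_pos_of_pos_on ((hc.pow _).intervalIntegrable _ _)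
      (fun t ht => pow_pos (hpos t ht.1) _) hr
  have mono : ∀ (F F' : ℝ → ℝ), (∀ r, 0 < r → HasDerivAt F (F' r) r) → ContinuousOn F (Ici 0) →
      (∀ r, 0 < r → 0 ≤ F' r) → ∀ r, 0 ≤ r → F 0 ≤ F r := fun F F' hF hFc hF' r hr =>
    monotoneOn_of_hasDerivWithinAt_nonneg (f' := F') (convex_Ici 0) hFc
      (fun x hx => by rw [interior_Ici] at hx; exact (hF x hx).hasDerivWithinAt)
      (fun x hx => by rw [interior_Ici] at hx; exact hF' x hx) self_mem_Ici hr hr
  have hsn : ∀ r, 0 ≤ r → n * Y r ≤ sn r ^ n := fun r hr => by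
    have := mono (fun r => sn r ^ n - n * Y r) (fun r => n * sn r ^ (n - 1) * D r - n * sn r ^ (n - 1))
      (fun r _ => ((hd r).fun_pow n).fun_sub ((hY r).const_mul _))
      (((hc.pow n).sub (hYc.const_mul _)).continuousOn)
      (fun r hr => by
        have := (hcs r hr.le).1
        have hp : 0 ≤ (n : ℝ) * sn r ^ (n - 1) :=
          mul_nonneg (Nat.cast_nonneg n) (pow_pos (hpos r hr) _).le
        nlinarith) r hr
    simp only [h0, hY0, mul_zero, sub_zero, zero_pow (by omega : n ≠ 0)] at this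
    linarith
  have hα : 0 < 1 - (n : ℝ)⁻¹ := by
    linarith [inv_lt_one_of_one_lt₀ (show (1 : ℝ) < n by linarith)]
  have key := mono (fun r => ((n : ℝ) * Y r) ^ (1 - (n : ℝ)⁻¹) + (n - 1) * b * Y r - sn r ^ (n - 1))
    (fun r => n * sn r ^ (n - 1) * (1 - (n : ℝ)⁻¹) * ((n : ℝ) * Y r) ^ (1 - (n : ℝ)⁻¹ - 1)
      + (n - 1) * b * sn r ^ (n - 1) - ((n - 1 : ℕ) : ℝ) * sn r ^ (n - 1 - 1) * D r)
    (fun r hr => ((((hY r).const_mul _).rpow_const (Or.inl (by
      have := hYpos r hr; positivity))).fun_add ((hY r).const_mul _)).fun_sub ((hd r).fun_pow _))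
    (by
      refine (((hYc.const_mul _).rpow_const fun x => Or.inr hα.le).add
        (hYc.const_mul _)).sub (hc.pow _) |>.continuousOn)
    (fun r hr => by
      have hs := hpos r hr
      have hy : 0 < (n : ℝ) * Y r := mul_pos (by linarith) (hYpos r hr)
      have h1 : (sn r)⁻¹ ≤ ((n : ℝ) * Y r) ^ (1 - (n : ℝ)⁻¹ - 1) := by
        have h2 : ((n : ℝ) * Y r) ^ ((n : ℝ)⁻¹) ≤ sn r := by
          have := Real.rpow_le_rpow hy.le (hsn r hr.le) (show 0 ≤ (n : ℝ)⁻¹ by positivity)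
          rwa [Real.pow_rpow_inv_natCast hs.le (by omega)] at this
        rw [show 1 - (n : ℝ)⁻¹ - 1 = -(n : ℝ)⁻¹ by ring, Real.rpow_neg hy.le]
        exact inv_anti₀ (Real.rpow_pos_of_pos hy _) h2
      have e1 : sn r ^ (n - 1) = sn r ^ (n - 1 - 1) * sn r := by
        rw [← pow_succ, show n - 1 - 1 + 1 = n - 1 by omega]
      have e2 : ((n - 1 : ℕ) : ℝ) = n - 1 := by rw [Nat.cast_sub (by omega)]; simp
      have e3 : (n : ℝ) * (1 - (n : ℝ)⁻¹) = n - 1 := by field_simp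
      rw [e2]
      have hD := (hcs r hr.le).2
      have hP : 0 ≤ sn r ^ (n - 1 - 1) := (pow_pos hs _).le
      have h3 : 1 ≤ sn r * ((n : ℝ) * Y r) ^ (1 - (n : ℝ)⁻¹ - 1) := by
        have := mul_le_mul_of_nonneg_left h1 hs.le
        rwa [mul_inv_cancel₀ hs.ne'] at this
      calc (0 : ℝ) ≤ ((n : ℝ) - 1) * sn r ^ (n - 1 - 1) *
            (sn r * ((n : ℝ) * Y r) ^ (1 - (n : ℝ)⁻¹ - 1) + b * sn r - D r) :=
            mul_nonneg (mul_nonneg (by linarith) hP) (by simp only [D]; linarith)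
        _ = _ := by rw [← e3, e1]; ring) r hr
  simp only [h0, hY0, mul_zero, Real.zero_rpow hα.ne', add_zero, zero_pow hn1, sub_zero] at key
  have hB := ballVol_pos (n := n) (by omega)
  have hYr : 0 ≤ Y r := by
    rcases eq_or_lt_of_le hr with h | h
    · rw [← h, hY0]
    · exact (hYpos r h).le
  have e4 : (n : ℝ) * ballVol n ^ ((n : ℝ)⁻¹) * ((n : ℝ) * ballVol n * Y r) ^ (1 - (n : ℝ)⁻¹) =
      n * ballVol n * ((n : ℝ) * Y r) ^ (1 - (n : ℝ)⁻¹) := by
    rw [show (n : ℝ) * ballVol n * Y r = ballVol n * (n * Y r) by ring,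
      Real.mul_rpow hB.le (by positivity)]
    have : ballVol n ^ ((n : ℝ)⁻¹) * ballVol n ^ (1 - (n : ℝ)⁻¹) = ballVol n := by
      rw [← Real.rpow_add hB, add_sub_cancel, Real.rpow_one]
    linear_combination ((n : ℝ) * ((n : ℝ) * Y r) ^ (1 - (n : ℝ)⁻¹)) * this
  show (n : ℝ) * ballVol n * sn r ^ (n - 1) ≤
    n * ballVol n ^ ((n : ℝ)⁻¹) * ((n : ℝ) * ballVol n * Y r) ^ (1 - (n : ℝ)⁻¹)
      + (n - 1) * b * ((n : ℝ) * ballVol n * Y r)
  rw [e4]
  nlinarith [mul_nonneg (mul_nonneg (Nat.cast_nonneg (α := ℝ) n) hB.le) (sub_nonneg.2 (le_of_sub_nonneg key))]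

end

end Vale.Agent.P219
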