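import Mathlib
import Vale.Agent.P219.Mollify
import Vale.Agent.P219.Model

/-! The isoperimetric bounds for rotationally symmetric metrics of curvature at most `κ ≤ 0`. -/

open MeasureTheory Set Filter Metric
open scoped ENNReal Topology

namespace Vale.Agent.P219

noncomputable section

variable {n : ℕ}

/-- A conformal factor given on an interval agrees near `[0, ρ]` with a global one. -/
lemma exists_extension {w : ℝ → ℝ} {κ R ρ : ℝ} (hρ : 0 ≤ ρ) (hρR : ρ < R)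
    (hw : ContDiffOn ℝ 2 w (Ioo (-R) R)) (hw0 : deriv w 0 = 0) (hS : SecLE w κ R) :
    ∃ v : ℝ → ℝ, ∃ T, ρ < T ∧ ContDiff ℝ 2 v ∧ deriv v 0 = 0 ∧ SecLE v κ T ∧
      ∀ r ∈ Ioo (-T) T, v =ᶠ[𝓝 r] w := by
  let χ : ContDiffBump (0 : ℝ) := ⟨(2 * ρ + R) / 3, (ρ + 2 * R) / 3, by linarith, by linarith⟩
  have heq : ∀ r ∈ Ioo (-((2 * ρ + R) / 3)) ((2 * ρ + R) / 3),
      (fun s => χ s * w s) =ᶠ[𝓝 r] w := fun r hr => by
    have : r ∈ ball (0 : ℝ) χ.rIn := by
      rw [mem_ball_zero_iff, Real.norm_eq_abs]; exact abs_lt.2 hr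
    filter_upwards [χ.eventuallyEq_one_of_mem_ball this] with s hs
    simp [hs]
  refine ⟨fun s => χ s * w s, (2 * ρ + R) / 3, by linarith, ?_, ?_, ?_, heq⟩
  · refine contDiff_iff_contDiffAt.2 fun s => ?_
    by_cases hs : s ∈ Ioo (-R) R
    · exact χ.contDiffAt.mul (hw.contDiffAt (isOpen_Ioo.mem_nhds hs))
    · have hs' : s ∉ tsupport (χ : ℝ → ℝ) := by
        rw [χ.tsupport_eq, mem_closedBall_zero_iff, Real.norm_eq_abs]
        intro h
        change |s| ≤ (ρ + 2 * R) / 3 at h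
        exact hs (abs_lt.1 (lt_of_le_of_lt h (by linarith)))
      refine (contDiffAt_const (c := (0 : ℝ))).congr_of_eventuallyEq ?_
      filter_upwards [notMem_tsupport_iff_eventuallyEq.1 hs'] with t ht
      simp [ht]
  · rw [(heq 0 ⟨by linarith, by linarith⟩).deriv_eq, hw0]
  · intro r hr hrT
    have h1 := heq r ⟨by linarith, hrT⟩
    have h2 := h1.deriv
    have h3 : (fun s => 1 + s * deriv (fun s => χ s * w s) s) =ᶠ[𝓝 r]
        fun s => 1 + s * deriv w s := by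
      filter_upwards [h2] with s hs
      rw [hs]
    rw [h3.deriv_eq, h2.eq_of_nhds]
    simp only [h1.eq_of_nhds]
    exact hS r hr (by linarith)

lemma areaDensity_congr {v w : ℝ → ℝ} {T : ℝ} (h : ∀ r ∈ Ioo (-T) T, v =ᶠ[𝓝 r] w) {x : Space n}
    (hx : ‖x‖ < T) : areaDensity v =ᶠ[𝓝 x] areaDensity (n := n) w := by
  filter_upwards [continuous_norm.continuousAt.eventually
    (h ‖x‖ ⟨by linarith [norm_nonneg x], hx⟩)] with y hy
  simp [areaDensity, hy]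

lemma gPer_congr {v w : ℝ → ℝ} {T ρ : ℝ} (hρT : ρ < T) (h : ∀ r ∈ Ioo (-T) T, v =ᶠ[𝓝 r] w)
    {Ω : Set (Space n)} (hΩm : MeasurableSet Ω) (hΩ : Ω ⊆ closedBall 0 ρ) :
    gPer v Ω = gPer w Ω := by
  refine iSup_congr fun Y => iSup_congr fun _ => ?_
  congr 1
  refine setIntegral_congr_fun hΩm fun x hx => divg_congr ?_
  filter_upwards [areaDensity_congr h ((mem_closedBall_zero_iff.1 (hΩ hx)).trans_lt hρT)] with y hy
  rw [hy]

lemma gVol_congr {v w : ℝ → ℝ} {T ρ : ℝ} (hρT : ρ < T) (h : ∀ r ∈ Ioo (-T) T, v =ᶠ[𝓝 r] w)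
    {Ω : Set (Space n)} (hΩm : MeasurableSet Ω) (hΩ : Ω ⊆ closedBall 0 ρ) :
    gVol v Ω = gVol w Ω := by
  refine setIntegral_congr_fun hΩm fun x hx => ?_
  have hxT : ‖x‖ < T := (mem_closedBall_zero_iff.1 (hΩ hx)).trans_lt hρT
  simp only [(h ‖x‖ ⟨by linarith [norm_nonneg x], hxT⟩).eq_of_nhds]

/-- Both bounds, up to universal constants. -/
theorem iso_rot_sym (hn : 2 ≤ n) {κ R ρ : ℝ} (hκ : κ ≤ 0) (hρ : 0 ≤ ρ) (hρR : ρ < R)
    {w : ℝ → ℝ} (hw : ContDiffOn ℝ 2 w (Ioo (-R) R)) (hw0 : deriv w 0 = 0) (hS : SecLE w κ R)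
    {Ω : Set (Space n)} (hΩm : MeasurableSet Ω) (hΩ : Ω ⊆ closedBall 0 ρ) :
    ENNReal.ofReal (n * ballVol n ^ ((n : ℝ)⁻¹) * gVol w Ω ^ (1 - (n : ℝ)⁻¹)) ≤ 2 * gPer w Ω ∧
      ∀ r, 0 ≤ r → modelVol n κ r = gVol w Ω →
        ENNReal.ofReal (modelArea n κ r) ≤ 3 * gPer w Ω := by
  obtain ⟨v, T, hT, hv, hv0, hvS, heq⟩ := exists_extension hρ hρR hw hw0 hS
  rw [← gPer_congr hT heq hΩm hΩ, ← gVol_congr hT heq hΩm hΩ]
  rcases eq_or_ne (gPer v Ω) ⊤ with hP | hP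
  · simp [hP]
  obtain ⟨hA, hB⟩ := radial_bounds hv hv0 hκ hvS hn hΩm hρ hT hΩ hP
  have hC := iso_le_gPer_add (hv.of_le (by norm_num)) hv0 hn hΩm hΩ hP
  have key : ∀ (a : ℝ) (m : ℕ), a ≤ (m : ℝ) * (gPer v Ω).toReal →
      ENNReal.ofReal a ≤ (m : ℝ≥0∞) * gPer v Ω := fun a m h => by
    refine (ENNReal.ofReal_le_ofReal h).trans ?_
    rw [ENNReal.ofReal_mul (Nat.cast_nonneg m), ENNReal.ofReal_natCast, ENNReal.ofReal_toReal hP]
  refine ⟨key _ 2 (by push_cast; linarith), fun r hr hV => key _ 3 ?_⟩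
  have hM := modelArea_le hn hκ hr
  rw [hV] at hM
  push_cast
  linarith

/-- The hypotheses are satisfied by hyperbolic space in the ball model. -/
theorem exists_hyperbolic {κ : ℝ} (hκ : κ < 0) :
    ∃ w : ℝ → ℝ, ContDiffOn ℝ 2 w (Ioo (-1) 1) ∧ deriv w 0 = 0 ∧ SecLE w κ 1 := by
  set b := Real.sqrt (-κ) with hb
  have hb0 : 0 < b := Real.sqrt_pos.2 (by linarith)
  have hb2 : b ^ 2 = -κ := Real.sq_sqrt (by linarith)
  set w : ℝ → ℝ := fun r => Real.log 2 - Real.log b - Real.log (1 - r ^ 2) with hw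
  have hpos : ∀ r ∈ Ioo (-1 : ℝ) 1, 0 < 1 - r ^ 2 := fun r hr => by nlinarith [hr.1, hr.2]
  have hd : ∀ r ∈ Ioo (-1 : ℝ) 1, HasDerivAt w (2 * r / (1 - r ^ 2)) r := fun r hr => by
    have := ((((hasDerivAt_pow 2 r).const_sub 1).log (hpos r hr).ne').const_sub
      (Real.log 2 - Real.log b))
    refine this.congr_deriv ?_
    push_cast
    field_simp
  have hexp : ∀ r ∈ Ioo (-1 : ℝ) 1, Real.exp (w r) = 2 / b / (1 - r ^ 2) := fun r hr => by
    rw [hw]; simp only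
    rw [Real.exp_sub, Real.exp_sub, Real.exp_log two_pos, Real.exp_log hb0, Real.exp_log (hpos r hr)]
  refine ⟨w, ?_, ?_, fun r hr hr1 => ?_⟩
  · exact contDiffOn_const.sub ((contDiffOn_const.sub (contDiffOn_id.pow 2)).log
      fun r hr => (hpos r hr).ne')
  · rw [(hd 0 (by norm_num)).deriv]; simp
  · have hr' : r ∈ Ioo (-1 : ℝ) 1 := ⟨by linarith, hr1⟩
    have hp := hpos r hr'
    have he : (fun s => 1 + s * deriv w s) =ᶠ[𝓝 r] fun s => 1 + s * (2 * s / (1 - s ^ 2)) := by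
      filter_upwards [isOpen_Ioo.mem_nhds hr'] with s hs
      rw [(hd s hs).deriv]
    have hD : HasDerivAt (fun s : ℝ => 1 + s * (2 * s / (1 - s ^ 2)))
        (4 * r / (1 - r ^ 2) ^ 2) r := by
      refine (((hasDerivAt_id' r).mul (((hasDerivAt_id' r).const_mul 2).div
        ((hasDerivAt_pow 2 r).const_sub 1) hp.ne')).const_add 1).congr_deriv ?_
      simp only [Pi.div_apply]
      push_cast
      field_simp
      ring
    have h2 : Real.exp (2 * w r) = (2 / b / (1 - r ^ 2)) ^ 2 := by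
      rw [show 2 * w r = ((2 : ℕ) : ℝ) * w r by norm_num, Real.exp_nat_mul, hexp r hr']
    rw [he.deriv_eq, hD.deriv, (hd r hr').deriv, h2, hexp r hr']
    have hk : κ = -b ^ 2 := by linarith
    constructor
    · refine le_of_eq ?_
      rw [hk]; field_simp; ring
    · refine le_of_eq ?_
      rw [hk]; field_simp; ring

end

end Vale.Agent.P219
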