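import Mathlib
import Vale.Agent.P219.Main

/-! The generalised Cartan–Hadamard inequality up to the constants `2` and `3` for rotationally
symmetric metrics, in every dimension. -/

open MeasureTheory Set Metric Vale.Agent.P219

namespace Vale.Agent.P219.RotSymRetired

theorem result :
    (∀ n : ℕ, 2 ≤ n → ∀ κ R ρ : ℝ, κ ≤ 0 → 0 ≤ ρ → ρ < R → ∀ w : ℝ → ℝ,
      ContDiffOn ℝ 2 w (Ioo (-R) R) → deriv w 0 = 0 → SecLE w κ R →
      ∀ Ω : Set (Space n), MeasurableSet Ω → Ω ⊆ closedBall 0 ρ →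
        ENNReal.ofReal (n * ballVol n ^ ((n : ℝ)⁻¹) * gVol w Ω ^ (1 - (n : ℝ)⁻¹))
            ≤ 2 * gPer w Ω ∧
          ∀ r, 0 ≤ r → modelVol n κ r = gVol w Ω →
            ENNReal.ofReal (modelArea n κ r) ≤ 3 * gPer w Ω) ∧
    (∀ κ : ℝ, κ < 0 →
      ∃ w : ℝ → ℝ, ContDiffOn ℝ 2 w (Ioo (-1) 1) ∧ deriv w 0 = 0 ∧ SecLE w κ 1) :=
  ⟨fun _ hn _ _ _ hκ hρ hρR _ hw hw0 hS _ hΩm hΩ =>
      iso_rot_sym hn hκ hρ hρR hw hw0 hS hΩm hΩ,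
    fun _ hκ => exists_hyperbolic hκ⟩

end Vale.Agent.P219.RotSymRetired
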